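import Vale.Agent.P218CN.Hub
import Vale.Agent.P218CO.Geo

/-! All conical ends at once, with orientations given by Booleans. -/

noncomputable section

namespace Vale.Agent.P218CN
open Set Filter Topology Metric Vale.Agent.P218CO Vale.Agent.P218GA Vale.Agent.P218XI
open Vale.Agent.P218EN WA Vale.Agent.P218VA Vale.Agent.P272.K.LIN
open scoped Matrix

theorem ConeFam.mono_const {V : Type*} [NormedAddCommGroup V] [NormedSpace ℂ V] {o : EndOp}
    {s δ C C' : ℝ} {RV : Set V} {jv : V → ℝ × ℝ → T3 ℂ} {J : V → Fin 6 → WA}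
    (h : ConeFam o s δ C RV jv J) (hC : C ≤ C') : ConeFam o s δ C' RV jv J :=
  { h with bd := fun v hv => (h.bd v hv).trans (by gcongr) }

variable {S : Set E3} {w : E3 → ℝ} {δ0 C0 : ℝ} {ι κ M : Type} [TopologicalSpace M]
  [ChartedSpace E2 M] (m : Model S w δ0 C0 ι κ M)

lemma sgn_orient (j : κ) (b : Bool) : Sgn m j (sgn b) ((coneOp m j).orient b) := by
  cases b
  · exact Or.inr ⟨rfl, rfl⟩
  · exact Or.inl ⟨rfl, rfl⟩

lemma tE_cone (ε : ι ⊕ κ → Bool) (j : κ) (J : Fin 6 → WA) (p : ℝ × ℝ) :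
    tE m ε (.inr j) p (j0 J p) = tOf m j (sgn (ε (.inr j))) J p := one_mul _

lemma XE_cone (ε : ι ⊕ κ → Bool) (j : κ) (J : Fin 6 → WA) (p : ℝ × ℝ) (B : ι × Fin 2 → ℂ) :
    XE m ε (.inr j) p (j0 J p) B = (coneF (m.L j)).X p.1 p.2 (tOf m j (sgn (ε (.inr j))) J p) := by
  rw [XE, tE_cone]
  exact Matrix.one_mulVec _

/-- solutions on all conical ends with common constants -/
theorem exists_boxes [Finite κ] [T2Space M] [RSm E2 M] : ∀ᶠ s in atTop, ∀ (𝒞 : Cov E2 M)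
    (b : κ → Bool) (r : ℝ), 0 < r → ∃ (δ C : ℝ) (J : κ → VC 𝒞 → Fin 6 → WA), 0 < δ ∧ 0 ≤ C ∧
      C * δ ≤ r ∧ ∀ j, ConeFam ((coneOp m j).orient (b j)) s δ C {v | v.im = 0}
        (jvE (ends m) 𝒞 (.inr j)) (J j) := by
  filter_upwards [eventually_all.2 (exists_box m)] with s hs 𝒞 b r hr
  choose δ C J hC _ h using fun j => hs j 𝒞 ((coneOp m j).orient (b j))
    ((sgn_orient m j (b j)).imp And.right And.right) 1 one_pos
  obtain ⟨A, hA⟩ := (finite_range C).bddAbove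
  have h1 : ∀ᶠ d in 𝓝[>] (0 : ℝ), (∀ j, d ≤ δ j) ∧ d ≤ r / (|A| + 1) ∧ 0 < d :=
    (eventually_all.2 fun j => (eventually_le_nhds (h j).pos).filter_mono nhdsWithin_le_nhds).and
      (((eventually_le_nhds (show 0 < r / (|A| + 1) by positivity)).filter_mono
        nhdsWithin_le_nhds).and self_mem_nhdsWithin)
  obtain ⟨d, h2, h3, h4⟩ := h1.exists
  refine ⟨d, |A|, J, h4, abs_nonneg A, ?_, fun j =>
    ((h j).mono h4 (h2 j)).mono_const ((hA ⟨j, rfl⟩).trans (le_abs_self A))⟩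
  rw [le_div_iff₀ (by positivity)] at h3
  nlinarith

/-- the fields of the hub for all conical ends -/
theorem exists_coneHubs [Fintype ι] [Finite κ] : ∃ K : ℝ, ∀ᶠ s in atTop, ∀ (V : Type)
    [NormedAddCommGroup V] [NormedSpace ℂ V] (δ C : ℝ) (b : κ → Bool) (RV : Set V)
    (jv : κ → V → ℝ × ℝ → T3 ℂ) (J : κ → V → Fin 6 → WA),
    (∀ j, ConeFam ((coneOp m j).orient (b j)) s δ C RV (jv j) (J j)) → 0 ≤ C → C * δ ≤ 1 / 4 →
    ∀ (τ : Type) [Fintype τ] (c : P218HB.Cst) (v : (ι → ℝ) → P218SQ.Pt ι τ → V)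
      (vb : P218SQ.Pt ι τ → V),
    P218HB.HB c (univ : Set Unit) (fun W z _ => v W z) (fun z _ => vb z) →
    P218HB.Lp c (univ : Set Unit) (fun W z _ => v W z) →
    (∀ W z, c.Ok W z → v W z ∈ ball 0 (δ / 4)) →
    (∀ z ∈ ball (0 : P218SQ.Pt ι τ) c.r, vb z ∈ ball 0 (δ / 4)) → vb 0 = 0 →
    (∀ W x, c.Ok W (P218SQ.ofReal x) → v W (P218SQ.ofReal x) ∈ RV) → ∀ j,
    ConeHub m j c (s + 6) K (fun W z => tOf m j (sgn (b j)) (J j (v W z)))
      fun z => tOf m j (sgn (b j)) (J j (vb z)) := by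
  choose K hK using exists_coneHub m
  obtain ⟨A, hA⟩ := (finite_range K).bddAbove
  refine ⟨A, ?_⟩
  filter_upwards [eventually_all.2 hK] with s hs V _ _ δ C b RV jv J h hC hδ τ _ c v vb h1 h2 h3 h4
    h5 h6 j
  have := hs j V _ δ C _ RV _ _ (sgn_orient m j (b j)) (h j) hC hδ τ c v vb h1 h2 h3 h4 h5 h6
  exact { this with t_supp := fun W z hz p hp => (this.t_supp W z hz p hp).trans (hA ⟨j, rfl⟩) }

end Vale.Agent.P218CN
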