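import Vale.Agent.P218CN.Green
import Vale.Agent.P218VA.Strip

/-! From coefficientwise jets in the Wiener algebra to functions of class `C ^ 2`. -/

namespace Vale.Agent.P218CN
open Filter Topology Set Complex Vale.Agent.P218EN WA Vale.Agent.P218VA
open scoped Real

section jets
variable {F : Type*} [NormedAddCommGroup F] [NormedSpace ℝ F] {I : Set ℝ}
  {V V1 V2 U U1 U2 : ℝ × ℝ → F}

theorem jet1_congr (h : Jet1 I V V1 V2) (e : ∀ p : ℝ × ℝ, p.1 ∈ I → U p = V p)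
    (e1 : ∀ p : ℝ × ℝ, p.1 ∈ I → U1 p = V1 p) (e2 : ∀ p : ℝ × ℝ, p.1 ∈ I → U2 p = V2 p) :
    Jet1 I U U1 U2 where
  c0 := h.c0.congr fun p hp => e p hp.1
  c1 := h.c1.congr fun p hp => e1 p hp.1
  c2 := h.c2.congr fun p hp => e2 p hp.1
  dw w hw θ := by
    rw [e1 (w, θ) (interior_subset hw)]
    refine (h.dw w hw θ).congr_of_eventuallyEq ?_
    filter_upwards [mem_interior_iff_mem_nhds.1 hw] with s hs using e (s, θ) hs
  dθ w hw θ := by
    rw [e2 (w, θ) hw]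
    exact (h.dθ w hw θ).congr_of_eventuallyEq (Eventually.of_forall fun t => e (w, t) hw)
  per w hw θ := by rw [e (w, _) hw, e (w, _) hw, h.per w hw]

/-- the derivative with the given components -/
noncomputable def cop : F × F →L[ℝ] (ℝ × ℝ →L[ℝ] F) :=
  (ContinuousLinearMap.smulRightL ℝ (ℝ × ℝ) F (ContinuousLinearMap.fst ℝ ℝ ℝ)).coprod
    (ContinuousLinearMap.smulRightL ℝ (ℝ × ℝ) F (ContinuousLinearMap.snd ℝ ℝ ℝ))

theorem cop_apply (x y : F) (v : ℝ × ℝ) : cop (x, y) v = v.1 • x + v.2 • y := rfl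

theorem jet1_hasFDerivAt (h : Jet1 I V V1 V2) {p : ℝ × ℝ} (hp : p.1 ∈ interior I) :
    HasFDerivAt V (cop (V1 p, V2 p)) p := by
  have hn : ∀ᶠ q : ℝ × ℝ in 𝓝 p, q.1 ∈ interior I :=
    continuous_fst.continuousAt.eventually (isOpen_interior.mem_nhds hp)
  have hs : I ×ˢ (univ : Set ℝ) ∈ 𝓝 p := hn.mono fun q hq => ⟨interior_subset hq, mem_univ _⟩
  have := (hasStrictFDerivAt_uncurry_coprod (𝕜 := ℝ) (u := p) (f := fun w θ => V (w, θ))
    (f₁ := fun w θ => ContinuousLinearMap.toSpanSingleton ℝ (V1 (w, θ)))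
    (f₂ := fun w θ => ContinuousLinearMap.toSpanSingleton ℝ (V2 (w, θ)))
    (hn.mono fun q hq => (h.dw q.1 hq q.2).hasFDerivAt)
    (hn.mono fun q hq => (h.dθ q.1 (interior_subset hq) q.2).hasFDerivAt)
    ((ContinuousLinearMap.toSpanSingletonCLE (𝕜 := ℝ) (E := F)).continuous.continuousAt.comp
      (h.c1.continuousAt hs))
    ((ContinuousLinearMap.toSpanSingletonCLE (𝕜 := ℝ) (E := F)).continuous.continuousAt.comp
      (h.c2.continuousAt hs))).hasFDerivAt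
  refine HasFDerivAt.congr_fderiv this ?_
  ext <;> simp [cop_apply, Function.HasUncurry.uncurry]

theorem jet1_contDiffAt_succ {n : ℕ} (h : Jet1 I V V1 V2) {p : ℝ × ℝ} (hp : p.1 ∈ interior I)
    (h1 : ContDiffAt ℝ n V1 p) (h2 : ContDiffAt ℝ n V2 p) : ContDiffAt ℝ (n + 1 : ℕ) V p := by
  refine contDiffAt_succ_iff_hasFDerivAt.2 ⟨fun q => cop (V1 q, V2 q), ⟨{q | q.1 ∈ interior I},
    continuous_fst.continuousAt.eventually (isOpen_interior.mem_nhds hp),
    fun q hq => jet1_hasFDerivAt h hq⟩, ?_⟩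
  have h3 : ContDiffAt ℝ n (cop (F := F)) (V1 p, V2 p) := (cop (F := F)).contDiff.contDiffAt
  exact ContDiffAt.comp (g := cop (F := F)) (f := fun q => (V1 q, V2 q)) p h3 (h1.prodMk h2)

theorem jet1_contDiffAt (h : Jet1 I V V1 V2) {p : ℝ × ℝ} (hp : p.1 ∈ interior I) :
    ContDiffAt ℝ 1 V p := by
  have hn : I ×ˢ (univ : Set ℝ) ∈ 𝓝 p :=
    (continuous_fst.continuousAt.eventually (isOpen_interior.mem_nhds hp)).mono
      fun q hq => ⟨interior_subset hq, mem_univ _⟩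
  exact jet1_contDiffAt_succ (n := 0) h hp (contDiffAt_zero.2 ⟨_, hn, h.c1⟩)
    (contDiffAt_zero.2 ⟨_, hn, h.c2⟩)

/-- continuous second order jets give class `C ^ 2` in the interior -/
theorem jet2_contDiffAt {X a b aa ab bb : ℝ × ℝ → F} (h : Jet2 I X a b aa ab bb) {p : ℝ × ℝ}
    (hp : p.1 ∈ interior I) : ContDiffAt ℝ 2 X p :=
  jet1_contDiffAt_succ (n := 1) h.j0 hp (jet1_contDiffAt h.j1 hp) (jet1_contDiffAt h.j2 hp)

end jets

theorem hasDerivAt_ch (k : ℤ) (θ : ℝ) : HasDerivAt (ch k) (k * I * ch k θ) θ := by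
  have := ((((hasDerivAt_id θ).ofReal_comp).const_mul (k : ℂ)).mul_const I).cexp
  refine HasDerivAt.congr_deriv this ?_
  simp only [ch, id, ofReal_one]
  ring

theorem ch_periodic (k : ℤ) (θ : ℝ) : ch k (θ + 2 * π) = ch k θ := by
  have h : (k : ℂ) * ((θ + 2 * π : ℝ) : ℂ) * I = k * θ * I + k * (2 * π * I) := by push_cast; ring
  rw [ch, h, exp_add, exp_int_mul_two_pi_mul_I, mul_one, ch]

theorem ev_periodic (x : WA) (w θ : ℝ) : x.ev w (θ + 2 * π) = x.ev w θ := by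
  simp only [ev, ch_periodic]

/-- termwise differentiation -/
theorem jet1_ev {a : ℝ} {x x1 x2 : WA}
    (h1 : ∀ k w, a ≤ w → HasDerivWithinAt (x.co k) (x1.co k w) (Ici a) w)
    (h2 : ∀ k w, a ≤ w → x2.co k w = k * I * x.co k w) :
    Jet1 (Ici a) (fun p => x.ev p.1 p.2) (fun p => x1.ev p.1 p.2) (fun p => x2.ev p.1 p.2) where
  c0 := x.continuous_ev.continuousOn
  c1 := x1.continuous_ev.continuousOn
  c2 := x2.continuous_ev.continuousOn
  dw w hw θ := by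
    rw [interior_Ici] at hw
    exact hasDerivAt_tsum_of_isPreconnected x1.summable isOpen_Ioi isPreconnected_Ioi
      (g := fun k s => x.co k s * ch k θ) (g' := fun k s => x1.co k s * ch k θ)
      (fun k s hs => ((h1 k s (le_of_lt hs)).hasDerivAt (Ici_mem_nhds hs)).mul_const _)
      (fun k s _ => by rw [norm_mul, norm_ch, mul_one]; exact (x1.co k).norm_coe_le_norm s)
      hw (x.hasSum_ev w θ).summable hw
  dθ w hw θ := hasDerivAt_tsum x2.summable (g := fun k t => x.co k w * ch k t)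
      (g' := fun k t => x2.co k w * ch k t)
      (fun k t => ((hasDerivAt_ch k t).const_mul _).congr_deriv (by rw [h2 k w hw]; ring))
      (fun k t => by rw [norm_mul, norm_ch, mul_one]; exact (x2.co k).norm_coe_le_norm w)
      (x.hasSum_ev w θ).summable θ
  per w _ θ := ev_periodic x w θ

/-- the function with the normalised jet `J` -/
noncomputable def j0 (J : Fin 6 → WA) (p : ℝ × ℝ) : ℂ := (J 0).ev p.1 p.2
/-- its derivative in `w` -/
noncomputable def jw (J : Fin 6 → WA) (p : ℝ × ℝ) : ℂ := (J 3).ev p.1 p.2 / (4 * p.1 ^ 2)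
/-- its derivative in `θ` -/
noncomputable def jt (J : Fin 6 → WA) (p : ℝ × ℝ) : ℂ := (J 1).ev p.1 p.2
/-- its second derivative in `w` -/
noncomputable def jww (J : Fin 6 → WA) (p : ℝ × ℝ) : ℂ := (J 4).ev p.1 p.2 / (4 * p.1 ^ 2)
/-- its mixed derivative -/
noncomputable def jwt (J : Fin 6 → WA) (p : ℝ × ℝ) : ℂ := (J 5).ev p.1 p.2 / (2 * p.1)
/-- its second derivative in `θ` -/
noncomputable def jtt (J : Fin 6 → WA) (p : ℝ × ℝ) : ℂ := (J 2).ev p.1 p.2

theorem IsJet.jet2 {a : ℝ} (ha : 1 ≤ a) {J : Fin 6 → WA} (h : IsJet a J) :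
    Jet2 (Ici a) (j0 J) (jw J) (jt J) (jww J) (jwt J) (jtt J) := by
  have hw0 : ∀ w, a ≤ w → (w : ℂ) ≠ 0 := fun w hw =>
    ofReal_ne_zero.2 (one_pos.trans_le (ha.trans hw)).ne'
  have c1 : ∀ (x : WA) k w, a ≤ w → (sc (xB a) * x).co k w = x.co k w / (2 * w) :=
    fun x k w hw => by rw [co_sc_mul, xB_of_le ha hw]; ring
  have c2 : ∀ (x : WA) k w, a ≤ w → (sc (xB a) * (sc (xB a) * x)).co k w = x.co k w / (4 * w ^ 2) :=
    fun x k w hw => by rw [c1 _ k w hw, c1 _ k w hw]; have := hw0 w hw; field_simp; norm_num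
  have e1 : ∀ (x : WA) (p : ℝ × ℝ), p.1 ∈ Ici a →
      x.ev p.1 p.2 / (2 * p.1) = (sc (xB a) * x).ev p.1 p.2 :=
    fun x p hp => by rw [ev_mul, ev_sc, xB_of_le ha hp]; ring
  have e2 : ∀ (x : WA) (p : ℝ × ℝ), p.1 ∈ Ici a →
      x.ev p.1 p.2 / (4 * p.1 ^ 2) = (sc (xB a) * (sc (xB a) * x)).ev p.1 p.2 :=
    fun x p hp => by rw [← e1 _ p hp, ← e1 _ p hp]; have := hw0 _ hp; field_simp; norm_num
  refine ⟨jet1_congr (jet1_ev (x := J 0) (x1 := sc (xB a) * (sc (xB a) * J 3)) (x2 := J 1)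
      (fun k w hw => by rw [c2 _ k w hw]; exact h.d0 k w hw) h.t1) (fun _ _ => rfl) (e2 _)
      fun _ _ => rfl,
    jet1_congr (jet1_ev (x := sc (xB a) * (sc (xB a) * J 3)) (x1 := sc (xB a) * (sc (xB a) * J 4))
      (x2 := sc (xB a) * J 5) (fun k w hw => ?_) fun k w hw => ?_) (e2 _) (e2 _) (e1 _),
    jet1_congr (jet1_ev (x := J 1) (x1 := sc (xB a) * J 5) (x2 := J 2) (fun k w hw => ?_) h.t2)
      (fun _ _ => rfl) (e1 _) fun _ _ => rfl⟩
  · rw [c2 _ k w hw]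
    exact (h.d1 k w hw).congr (c2 _ k) (c2 _ k w hw)
  · rw [c1 _ k w hw, c2 _ k w hw, h.t5 k w hw]
    have := hw0 w hw
    field_simp
    norm_num
  · refine (((h.d0 k w hw).const_mul (k * I : ℂ)).congr (h.t1 k) (h.t1 k w hw)).congr_deriv ?_
    rw [c1 _ k w hw, h.t5 k w hw]
    have := hw0 w hw
    field_simp
    norm_num

theorem IsJet.contDiffAt {a : ℝ} (ha : 1 ≤ a) {J : Fin 6 → WA} (h : IsJet a J) {p : ℝ × ℝ}
    (hp : a < p.1) : ContDiffAt ℝ 2 (j0 J) p :=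
  jet2_contDiffAt (h.jet2 ha) (by rw [interior_Ici]; exact hp)

theorem ev_eq_zero {x : WA} {w : ℝ} (h : ∀ k, x.co k w = 0) (θ : ℝ) : x.ev w θ = 0 := by
  simp [ev, h]

end Vale.Agent.P218CN
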