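import Vale.Agent.P218CN.Fam
import Vale.Agent.P218CO.Sys
import Vale.Agent.P218MP.Collar

/-! The black box for conical ends in the form used by the system on the closed surface. -/

noncomputable section

namespace Vale.Agent.P218CN
open Set Filter Topology Metric Vale.Agent.P218CO Vale.Agent.P218GA Vale.Agent.P218XI
open Vale.Agent.P218EN WA Vale.Agent.P218VA Vale.Agent.P218MP Vale.Agent.P272.K.LIN

theorem IsJet.pj_eq {a : ℝ} (ha : 1 ≤ a) {J : Fin 6 → WA} (h : IsJet a J) {p : ℝ × ℝ}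
    (hp : a < p.1) : pj (j0 J) p = ((j0 J p, jw J p, jt J p), (jww J p, jwt J p, jtt J p)) := by
  obtain ⟨h1, h2, h3, h4, h5⟩ := (h.jet2 ha).eq_pd (by rw [interior_Ici]; exact hp)
    (h.contDiffAt ha hp) (Eventually.of_forall fun _ => rfl)
  simp only [P218CO.cj, h1, h2, h3, h4, h5]

/-- the ordinary jet at `p` of a normalised jet -/
def jetL (p : ℝ × ℝ) : (Fin 6 → WA) →L[ℂ] J2 ℂ :=
  (((evL p.1 p.2).comp (.proj 0)).prod ((((4 * (p.1 : ℂ) ^ 2)⁻¹ • evL p.1 p.2).comp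
    (.proj 3)).prod ((evL p.1 p.2).comp (.proj 1)))).prod
  ((((4 * (p.1 : ℂ) ^ 2)⁻¹ • evL p.1 p.2).comp (.proj 4)).prod
    ((((2 * (p.1 : ℂ))⁻¹ • evL p.1 p.2).comp (.proj 5)).prod ((evL p.1 p.2).comp (.proj 2))))

lemma jetL_apply (p : ℝ × ℝ) (J : Fin 6 → WA) :
    jetL p J = ((j0 J p, jw J p, jt J p), (jww J p, jwt J p, jtt J p)) := by
  simp [jetL, j0, jw, jt, jww, jwt, jtt, div_eq_inv_mul]

theorem IsJet.pj_eq_jetL {a : ℝ} (ha : 1 ≤ a) {J : Fin 6 → WA} (h : IsJet a J) {p : ℝ × ℝ}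
    (hp : a < p.1) : pj (j0 J) p = jetL p J := (h.pj_eq ha hp).trans (jetL_apply p J).symm

lemma norm_ev_le' (J : Fin 6 → WA) (i : Fin 6) (w θ : ℝ) : ‖(J i).ev w θ‖ ≤ ‖J‖ :=
  (norm_ev_le _ _ _).trans (norm_le_pi_norm J i)

lemma norm_jw_le (J : Fin 6 → WA) (p : ℝ × ℝ) : 4 * p.1 ^ 2 * ‖jw J p‖ ≤ ‖J‖ := by
  rcases eq_or_ne p.1 0 with h | h
  · simp [h]
  · rw [jw, norm_div, norm_mul, norm_pow, Complex.norm_real, Real.norm_eq_abs, sq_abs,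
      Complex.norm_ofNat, mul_div_cancel₀ _ (by positivity)]
    exact norm_ev_le' J 3 _ _

lemma norm_jww_le (J : Fin 6 → WA) (p : ℝ × ℝ) : 4 * p.1 ^ 2 * ‖jww J p‖ ≤ ‖J‖ := by
  rcases eq_or_ne p.1 0 with h | h
  · simp [h]
  · rw [jww, norm_div, norm_mul, norm_pow, Complex.norm_real, Real.norm_eq_abs, sq_abs,
      Complex.norm_ofNat, mul_div_cancel₀ _ (by positivity)]
    exact norm_ev_le' J 4 _ _

lemma norm_jwt_le (J : Fin 6 → WA) {p : ℝ × ℝ} (hp : 0 < p.1) : 2 * p.1 * ‖jwt J p‖ ≤ ‖J‖ := by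
  rw [jwt, norm_div, norm_mul, Complex.norm_real, Real.norm_of_nonneg hp.le,
    Complex.norm_ofNat, mul_div_cancel₀ _ (by positivity)]
  exact norm_ev_le' J 5 _ _

lemma norm_jetL_le (J : Fin 6 → WA) {p : ℝ × ℝ} (hp : 1 ≤ p.1) : ‖jetL p J‖ ≤ ‖J‖ := by
  have h1 := norm_jw_le J p
  have h2 := norm_jww_le J p
  have h3 := norm_jwt_le J (one_pos.trans_le hp)
  have h4 : 1 ≤ 4 * p.1 ^ 2 := by nlinarith
  simp only [jetL_apply, Prod.norm_def, max_le_iff]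
  exact ⟨⟨norm_ev_le' J 0 _ _, by nlinarith [norm_nonneg (jw J p)], norm_ev_le' J 1 _ _⟩,
    by nlinarith [norm_nonneg (jww J p)], by nlinarith [norm_nonneg (jwt J p)],
    norm_ev_le' J 2 _ _⟩

lemma im_ev_of_cjv {J : Fin 6 → WA} (h : cjv J = J) (i : Fin 6) (w θ : ℝ) :
    ((J i).ev w θ).im = 0 := by
  rw [← Complex.conj_eq_iff_im, ← ev_cj]
  exact congrArg (fun x : WA => x.ev w θ) (congrFun h i)

lemma j0_neg (J : Fin 6 → WA) : j0 (-J) = fun p => -j0 J p :=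
  funext fun p => map_neg (evA p.1 p.2) _

namespace ConeFam
variable {V : Type*} [NormedAddCommGroup V] [NormedSpace ℂ V] {o : EndOp} {s δ C : ℝ}
  {RV : Set V} {jv : V → ℝ × ℝ → T3 ℂ} {J : V → Fin 6 → WA} (h : ConeFam o s δ C RV jv J)
include h

theorem mono {δ' : ℝ} (h0 : 0 < δ') (h1 : δ' ≤ δ) : ConeFam o s δ' C RV jv J :=
  have k := ball_subset_ball (x := (0 : V)) h1
  ⟨h0, h.one_le, h.holo.mono k, h.zero, fun v hv => h.bd v (k hv), fun v hv => h.jet v (k hv),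
    fun v hv => h.ini v (k hv), fun v hv => h.sol v (k hv), fun v hv => h.real v (k hv),
    fun v hv => h.djet v (k hv)⟩

theorem abs_const : ConeFam o s δ |C| RV jv J :=
  { h with bd := fun v hv => (h.bd v hv).trans (by gcongr; exact le_abs_self C) }

theorem flip (hR : ∀ v ∈ RV, -v ∈ RV) (hj : ∀ v (p : ℝ × ℝ), s < p.1 → jv (-v) p = -jv v p) :
    ConeFam o.flip s δ C RV jv fun v => -J (-v) := by
  have k : ∀ v ∈ ball (0 : V) δ, -v ∈ ball (0 : V) δ := fun v hv => by simpa using hv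
  refine ⟨h.pos, h.one_le, (h.holo.comp (by fun_prop) k).neg, by simp [h.zero],
    fun v hv => by simpa using h.bd _ (k v hv), fun v hv => (h.jet _ (k v hv)).neg,
    fun v hv θ => by simp only [j0_neg, h.ini _ (k v hv), neg_zero], fun v hv => ?_, fun v hv hr => ?_,
    fun v hv u => ?_⟩
  · have h1 := h.sol _ (k v hv)
    refine ⟨fun w θ => ev_periodic _ w θ,
      fun p hp => (h.jet _ (k v hv)).neg.contDiffAt h.one_le hp, fun p hp => ?_⟩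
    rw [EndOp.flip_END, (h.jet _ (k v hv)).neg.pj_eq_jetL h.one_le hp, map_neg, neg_neg,
      ← (h.jet _ (k v hv)).pj_eq_jetL h.one_le hp, ← hj v p hp, h1.eq p hp, neg_zero]
  · funext i
    exact (map_neg cjR _).trans (congrArg Neg.neg (congrFun (h.real _ (k v hv) (hR v hr)) i))
  · have h1 := ((h.holo.differentiableAt (isOpen_ball.mem_nhds (k v hv))).hasFDerivAt.comp v
      (hasFDerivAt_id v).neg).neg.fderiv
    change fderiv ℂ (fun v => -J (-v)) v = _ at h1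
    rw [h1]
    exact (h.djet _ (k v hv) _).neg

omit h [NormedAddCommGroup V] [NormedSpace ℂ V] in
theorem cont (v : V) : Continuous (j0 (J v)) := continuous_ev _

theorem zero0 (p : ℝ × ℝ) : j0 (J 0) p = 0 := by rw [h.zero]; exact ev_zero _ _

theorem hol_ev (i : Fin 6) (w θ : ℝ) :
    DifferentiableOn ℂ (fun v => (J v i).ev w θ) (ball 0 δ) :=
  (evL w θ).differentiable.comp_differentiableOn (differentiableOn_pi.1 h.holo i)

theorem hol0 (p : ℝ × ℝ) : DifferentiableOn ℂ (fun v => j0 (J v) p) (ball 0 δ) := h.hol_ev 0 _ _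

theorem hol2 {p : ℝ × ℝ} (hp : s < p.1) :
    DifferentiableOn ℂ (fun v => pj (j0 (J v)) p) (ball 0 δ) :=
  ((jetL p).differentiable.comp_differentiableOn h.holo).congr fun v hv =>
    (h.jet v hv).pj_eq_jetL h.one_le hp

theorem norm_le (hC : 0 ≤ C) {v : V} (hv : v ∈ ball (0 : V) δ) : ‖J v‖ ≤ C * δ :=
  (h.bd v hv).trans (by gcongr; exact (mem_ball_zero_iff.1 hv).le)

theorem bd0 {v : V} (hv : v ∈ ball (0 : V) δ) (p : ℝ × ℝ) : ‖j0 (J v) p‖ ≤ C * ‖v‖ :=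
  (norm_ev_le' _ 0 _ _).trans (h.bd v hv)

theorem bd2 {v : V} (hv : v ∈ ball (0 : V) δ) {p : ℝ × ℝ} (hp : s < p.1) :
    ‖pj (j0 (J v)) p‖ ≤ C * ‖v‖ := by
  rw [(h.jet v hv).pj_eq_jetL h.one_le hp]
  exact (norm_jetL_le _ (h.one_le.trans hp.le)).trans (h.bd v hv)

theorem real0 {v : V} (hv : v ∈ ball (0 : V) δ) (hr : v ∈ RV) (p : ℝ × ℝ) :
    (j0 (J v) p).im = 0 := im_ev_of_cjv (h.real v hv hr) 0 _ _

theorem lip {v : V} (hv : v ∈ ball (0 : V) δ) :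
    ∃ L : ℝ, 0 ≤ L ∧ ∀ᶠ v' in 𝓝 v, ‖J v' - J v‖ ≤ L * ‖v' - v‖ := by
  obtain ⟨L, hL, h1⟩ :=
    (h.holo.differentiableAt (isOpen_ball.mem_nhds hv)).hasFDerivAt.isBigO_sub.exists_nonneg
  exact ⟨L, hL, h1.bound⟩

theorem jet2 {v : V} (hv : v ∈ ball (0 : V) δ) : Jet2 (Ici s) (j0 (J v)) (jw (J v)) (jt (J v))
    (jww (J v)) (jwt (J v)) (jtt (J v)) := (h.jet v hv).jet2 h.one_le

end ConeFam

lemma pd_re_im {f g : ℝ × ℝ → ℝ} {p : ℝ × ℝ} (hf : DifferentiableAt ℝ f p)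
    (hg : DifferentiableAt ℝ g p) (d : ℝ × ℝ) :
    pd (fun q => (f q : ℂ) + Complex.I * g q) d p = (pd f d p : ℝ) + Complex.I * (pd g d p : ℝ) := by
  have h := ((Complex.ofRealCLM.hasFDerivAt.comp p hf.hasFDerivAt).add
    ((Complex.ofRealCLM.hasFDerivAt.comp p hg.hasFDerivAt).const_mul Complex.I)).fderiv
  exact congrArg (fun L => L d) h

variable {σ M : Type} [TopologicalSpace M] [ChartedSpace E2 M] [T2Space M] [RSm E2 M]

/-- the first order polar jet of `v` on the end `j` -/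
def jvE (𝓔 : Ends σ M) (𝒞 : Cov E2 M) (j : σ) (v : VC 𝒞) (p : ℝ × ℝ) : T3 ℂ :=
  (pj (fun q => fnC v (𝓔.Y j q)) p).1

omit [T2Space M] [RSm E2 M] in
lemma jv_eq {β : Type} [Fintype β] (c : CoreOp σ β M) {𝒞 : Cov E2 M} (v : VC 𝒞) (j : σ) :
    c.jv v j = jvE c.𝓔 𝒞 j v := rfl

theorem exists_col (𝓔 : Ends σ M) (𝒞 : Cov E2 M) (j : σ) {a b : ℝ} (ha : 𝓔.w0 < a)
    (hab : a ≤ b) : ∃ D : VC 𝒞 →L[ℂ] T3 WA, (∀ v w θ, ((D v).1.ev w θ, (D v).2.1.ev w θ,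
      (D v).2.2.ev w θ) = jvE 𝓔 𝒞 j v (P218MP.cl a b w, θ)) ∧ ∀ v : VC 𝒞, v.im = 0 →
      WA.cj (D v).1 = (D v).1 ∧ WA.cj (D v).2.1 = (D v).2.1 ∧ WA.cj (D v).2.2 = (D v).2.2 := by
  obtain ⟨L0, Lw, Lt, h⟩ : ∃ L0 Lw Lt : VR 𝒞 →L[ℝ] WA, ∀ v w θ,
      (L0 v).ev w θ = fnR v (𝓔.Y j (P218MP.cl a b w, θ)) ∧
      (Lw v).ev w θ = (pd (fun p => fnR v (𝓔.Y j p)) (1, 0) (P218MP.cl a b w, θ) : ℝ) ∧
      (Lt v).ev w θ = (pd (fun p => fnR v (𝓔.Y j p)) (0, 1) (P218MP.cl a b w, θ) : ℝ) :=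
    exists_collar 𝒞 (α := 1 / 2) (by norm_num) (by norm_num) (𝓔.mem j) hab
      fun p hp => Ends.pol_mem j (ha.trans_le hp.1)
  refine ⟨(Cx.lift L0).prod ((Cx.lift Lw).prod (Cx.lift Lt)), fun v w θ => ?_, fun v hv => ?_⟩
  · have hd : ∀ u : VR 𝒞, DifferentiableAt ℝ (fun q => fnR u (𝓔.Y j q)) (P218MP.cl a b w, θ) :=
      fun u => (Ends.contDiffAt_Y (k := 2) (X := fnR u) (ha.trans_le (P218MP.cl_mem hab w).1)
        (P218VA.CkFn.ckAt (𝒞.fn_ck (α := 1 / 2) u) _)).differentiableAt (by norm_num)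
    simp only [ContinuousLinearMap.prod_apply, Cx.lift_apply, ev_add, ev_smul, jvE, P218CO.cj, fnC,
      pd_re_im (hd _) (hd _), (h _ w θ).1, (h _ w θ).2.1, (h _ w θ).2.2]
  · rw [Cx.eq_ofR hv]
    simp only [ContinuousLinearMap.prod_apply, Cx.lift_ofR]
    exact ⟨cj_eq_of_real fun w θ => ⟨_, (h _ w θ).1⟩, cj_eq_of_real fun w θ => ⟨_, (h _ w θ).2.1⟩,
      cj_eq_of_real fun w θ => ⟨_, (h _ w θ).2.2⟩⟩

theorem exists_colMap (𝓔 : Ends σ M) (𝒞 : Cov E2 M) (j : σ) {s : ℝ} (hs : 𝓔.w0 < s) :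
    ∃ D : VC 𝒞 →L[ℂ] T3 WA, ColMap s {v | v.im = 0} (jvE 𝓔 𝒞 j) D := by
  obtain ⟨D, h1, h2⟩ := exists_col 𝓔 𝒞 j hs (b := s + 6) (by linarith)
  exact ⟨D, fun v p hp => by rw [h1, P218MP.cl_of_mem hp], h2⟩

lemma jvE_neg (𝓔 : Ends σ M) (𝒞 : Cov E2 M) (j : σ) (v : VC 𝒞) {p : ℝ × ℝ} (hp : 𝓔.w0 < p.1) :
    jvE 𝓔 𝒞 j (-v) p = -jvE 𝓔 𝒞 j v p := by
  obtain ⟨D, h, -⟩ := exists_col 𝓔 𝒞 j hp le_rfl
  have h1 := h v p.1 p.2
  have h2 := h (-v) p.1 p.2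
  rw [P218MP.cl_of_mem ⟨le_rfl, le_rfl⟩] at h1 h2
  have e : ∀ x : WA, (-x).ev p.1 p.2 = -x.ev p.1 p.2 := map_neg (evA p.1 p.2)
  rw [← h1, ← h2]
  simp [e]

variable {S : Set E3} {w : E3 → ℝ} {δ C : ℝ} {ι κ : Type} (m : Model S w δ C ι κ M)

/-- **The black box for a conical end**, in both orientations. -/
theorem exists_box (j : κ) : ∀ᶠ s in atTop, ∀ (𝒞 : Cov E2 M) (o : EndOp),
    o = coneOp m j ∨ o = (coneOp m j).flip → ∀ r : ℝ, 0 < r →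
    ∃ (δ C : ℝ) (J : VC 𝒞 → Fin 6 → WA), 0 ≤ C ∧ C * δ ≤ r ∧
      ConeFam o s δ C {v | v.im = 0} (jvE (ends m) 𝒞 (.inr j)) J := by
  filter_upwards [exists_coneFam m j, eventually_gt_atTop m.w0] with s h hs 𝒞 o ho r hr
  obtain ⟨D, hD⟩ := exists_colMap (ends m) 𝒞 (.inr j) hs
  obtain ⟨δ, C, J, hJ⟩ := h _ _ _ D hD
  have h1 := hJ.abs_const.mono (δ' := min δ (r / (|C| + 1))) (lt_min hJ.pos (by positivity))
    (min_le_left _ _)
  have h2 : |C| * min δ (r / (|C| + 1)) ≤ r := by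
    refine (mul_le_mul_of_nonneg_left (min_le_right _ _) (abs_nonneg C)).trans ?_
    rw [← mul_div_assoc, div_le_iff₀ (by positivity)]
    nlinarith
  rcases ho with rfl | rfl
  · exact ⟨_, _, _, abs_nonneg C, h2, h1⟩
  · exact ⟨_, _, _, abs_nonneg C, h2, h1.flip (fun v hv => by simpa using hv)
      fun v p hp => jvE_neg _ _ _ v (hs.trans hp)⟩

end Vale.Agent.P218CN
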