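import Vale.Agent.P218VA.Inv

/-! The shrinker equation on a conical end in normalised jets, and its link with `PP`. -/

open scoped Matrix
open Complex

noncomputable section

namespace Vale.Agent.P218CN

open Vale.Agent.P218VA

section ring
variable {R : Type*} [CommRing R]

/-- `1 + t ^ 2` -/
def lam (t : R) : R := 1 + t ^ 2
/-- `lam` times the length of the parallel curve -/
def gg (c β t : R) : R := c * (1 - t ^ 2) + 2 * t * β
/-- `lam` times the derivative of the length of the parallel curve -/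
def hh (c β t : R) : R := β * (1 - t ^ 2) - 2 * c * t
/-- `lam ^ 4 / 4` times the Gram determinant -/
def dd (c β t T Z : R) : R := 4 * T ^ 2 * lam t ^ 2 + gg c β t ^ 2 * (lam t ^ 2 + 4 * Z ^ 2)
/-- coefficient of `Q = 4 w ^ 2 t_ww` -/
def a11 (c β t T : R) : R := 2 * lam t ^ 2 * gg c β t * (4 * T ^ 2 + gg c β t ^ 2)
/-- coefficient of `S = 2 w t_wθ` -/
def a12 (c β t T Z : R) : R := -(16 * lam t ^ 2 * gg c β t * Z * T)
/-- coefficient of `U = t_θθ` -/
def a22 (c β t Z : R) : R := 2 * lam t ^ 2 * gg c β t * (lam t ^ 2 + 4 * Z ^ 2)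
/-- first order part; `T = t_θ`, `Z = 2 w t_w`, `P = 4 w ^ 2 t_w` -/
def bb (c β β' t T Z P : R) : R :=
  2 * lam t * gg c β t * (4 * T ^ 2 + gg c β t ^ 2) * (4 * lam t * Z - 2 * t * Z ^ 2) +
    16 * Z ^ 3 * gg c β t ^ 3 + 32 * lam t * t * gg c β t * Z ^ 2 * T ^ 2 -
    8 * lam t ^ 3 * hh c β t * T ^ 2 -
    lam t * (lam t ^ 2 + 4 * Z ^ 2) *
      (4 * gg c β t * t * T ^ 2 + gg c β t ^ 2 * hh c β t + 4 * lam t * t * T * β') -
    2 * gg c β t * P * dd c β t T Z
/-- the shrinker operator on a conical end -/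
def EE (c β β' t T U Z P Q S : R) : R :=
  a11 c β t T * Q + a12 c β t T Z * S + a22 c β t Z * U + bb c β β' t T Z P

variable {R' F : Type*} [CommRing R'] [FunLike F R R'] [RingHomClass F R R'] (φ : F)

lemma map_lam (t : R) : φ (lam t) = lam (φ t) := by simp [lam]
lemma map_gg (c β t : R) : φ (gg c β t) = gg (φ c) (φ β) (φ t) := by simp [gg, map_ofNat]
lemma map_hh (c β t : R) : φ (hh c β t) = hh (φ c) (φ β) (φ t) := by simp [hh, map_ofNat]
lemma map_dd (c β t T Z : R) : φ (dd c β t T Z) = dd (φ c) (φ β) (φ t) (φ T) (φ Z) := by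
  simp [dd, map_ofNat, map_lam, map_gg]
lemma map_a11 (c β t T : R) : φ (a11 c β t T) = a11 (φ c) (φ β) (φ t) (φ T) := by
  simp [a11, map_ofNat, map_lam, map_gg]
lemma map_a12 (c β t T Z : R) : φ (a12 c β t T Z) = a12 (φ c) (φ β) (φ t) (φ T) (φ Z) := by
  simp [a12, map_ofNat, map_lam, map_gg]
lemma map_a22 (c β t Z : R) : φ (a22 c β t Z) = a22 (φ c) (φ β) (φ t) (φ Z) := by
  simp [a22, map_ofNat, map_lam, map_gg]
lemma map_bb (c β β' t T Z P : R) :
    φ (bb c β β' t T Z P) = bb (φ c) (φ β) (φ β') (φ t) (φ T) (φ Z) (φ P) := by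
  simp [bb, map_ofNat, map_lam, map_gg, map_hh, map_dd]
lemma map_EE (c β β' t T U Z P Q S : R) : φ (EE c β β' t T U Z P Q S) =
    EE (φ c) (φ β) (φ β') (φ t) (φ T) (φ U) (φ Z) (φ P) (φ Q) (φ S) := by
  simp [EE, map_a11, map_a12, map_a22, map_bb]

end ring

/-- the matrix with the columns `u`, `v`, `e` -/
def col3 (u v e : C3) : Matrix (Fin 3) (Fin 3) ℂ := fun i j => ![u, v, e] j i

lemma col3_mulVec (u v e : C3) (x y z : ℂ) :
    col3 u v e *ᵥ ![x, y, z] = x • u + y • v + z • e := by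
  funext i
  simp [col3, Matrix.mulVec, dotProduct, Fin.sum_univ_three]
  ring

lemma col3_det (u v e : C3) : (col3 u v e).det = u ⨯₃ v ⬝ᵥ e := by
  simp only [Matrix.det_fin_three, col3, dot3, cross0, cross1, cross2]
  simp
  ring

/-- a complex orthonormal frame -/
structure ON (u v e : C3) : Prop where
  uu : u ⬝ᵥ u = 1
  vv : v ⬝ᵥ v = 1
  ee : e ⬝ᵥ e = 1
  uv : u ⬝ᵥ v = 0
  ue : u ⬝ᵥ e = 0
  ve : v ⬝ᵥ e = 0

lemma ON.orth {u v e : C3} (h : ON u v e) : (col3 u v e)ᵀ * col3 u v e = 1 := by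
  have h1 := h.uu
  have h2 := h.vv
  have h3 := h.ee
  have h4 := h.uv
  have h5 := h.ue
  have h6 := h.ve
  simp only [dot3] at h1 h2 h3 h4 h5 h6
  ext i j
  fin_cases i <;> fin_cases j <;>
    simp [Matrix.mul_apply, col3, Fin.sum_univ_three] <;>
    first
      | linear_combination h1 | linear_combination h2 | linear_combination h3
      | linear_combination h4 | linear_combination h5 | linear_combination h6

lemma ON.det_sq {u v e : C3} (h : ON u v e) : (u ⨯₃ v ⬝ᵥ e) ^ 2 = 1 := by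
  rw [← col3_det]; exact det_sq_rot h.orth

/-- the direction of the point -/
def om (γ n : C3) (t : ℂ) : C3 := ((1 - t ^ 2) / lam t) • γ + (2 * t / lam t) • n
/-- the spherical normal at the point -/
def nn (γ n : C3) (t : ℂ) : C3 := (-(2 * t) / lam t) • γ + ((1 - t ^ 2) / lam t) • n

lemma ON.rot {γ n e : C3} (h : ON γ n e) {t : ℂ} (ht : lam t ≠ 0) : ON (om γ n t) (nn γ n t) e := by
  have hnγ : n ⬝ᵥ γ = 0 := by rw [dotProduct_comm]; exact h.uv
  refine ⟨?_, ?_, h.ee, ?_, ?_, ?_⟩ <;>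
    simp only [om, nn, add_dotProduct, dotProduct_add, smul_dotProduct, dotProduct_smul,
      smul_eq_mul, h.uu, h.vv, h.uv, hnγ, h.ue, h.ve] <;> field_simp <;> simp only [lam] <;> ring

lemma det_om {γ n e : C3} {t : ℂ} (ht : lam t ≠ 0) :
    om γ n t ⨯₃ nn γ n t ⬝ᵥ e = γ ⨯₃ n ⬝ᵥ e := by
  have h : ((1 - t ^ 2) / lam t) * ((1 - t ^ 2) / lam t) - (-(2 * t) / lam t) * (2 * t / lam t)
      = 1 := by field_simp; simp only [lam]; ring
  unfold om nn
  rw [cross_change, h, one_smul]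

/-- first derivative of the angle -/
def f1 (t x : ℂ) : ℂ := 2 * x / lam t
/-- second derivative of the angle -/
def f2 (t x y z : ℂ) : ℂ := 2 * z / lam t - 4 * t * x * y / lam t ^ 2

section comp
variable (r c β β' t tw T tww twθ U : ℂ)
/-- components of the position in the moving frame, `r = √w` -/
def k0 : C3 := ![2 * r, 0, 0]
/-- components of `X_w` -/
def ka : C3 := ![1 / r, 2 * r * f1 t tw, 0]
/-- components of `X_θ` -/
def kb : C3 := ![0, 2 * r * f1 t T, 2 * r * (gg c β t / lam t)]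
/-- components of `X_ww` -/
def kaa : C3 := ![-1 / (2 * r ^ 3) - 2 * r * f1 t tw ^ 2,
  2 * f1 t tw / r + 2 * r * f2 t tw tw tww, 0]
/-- components of `X_wθ` -/
def kab : C3 := ![-(2 * r * f1 t tw * f1 t T), f1 t T / r + 2 * r * f2 t tw T twθ,
  gg c β t / lam t / r + 2 * r * f1 t tw * (hh c β t / lam t)]
/-- components of `X_θθ` -/
def kbb : C3 := ![-(2 * r * (f1 t T ^ 2 + (gg c β t / lam t) ^ 2)),
  2 * r * (f2 t T T U - gg c β t / lam t * (hh c β t / lam t)),
  2 * r * (2 * (hh c β t / lam t) * f1 t T + β' * (2 * t / lam t))]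

variable {r t}

lemma PP_comp (hr : r ≠ 0) (ht : lam t ≠ 0) :
    PP (k0 r) (ka r t tw) (kb r c β t T) (kaa r t tw tww) (kab r c β t tw T twθ)
      (kbb r c β β' t T U) = -4 * EE c β β' t T U (2 * r ^ 2 * tw) (4 * r ^ 4 * tw)
        (4 * r ^ 4 * tww) (2 * r ^ 2 * twθ) / (r * lam t ^ 6) := by
  simp only [PP, gram, dot3, cross0, cross1, cross2, k0, ka, kb, kaa, kab, kbb, EE, a11, a12, a22,
    bb, dd, f1, f2, Matrix.cons_val_zero, Matrix.cons_val_one, Matrix.cons_val_two,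
    Matrix.head_cons, Matrix.tail_cons]
  generalize gg c β t = g
  generalize hh c β t = h
  generalize lam t = l at ht ⊢
  field_simp
  ring

lemma gram_comp (hr : r ≠ 0) (ht : lam t ≠ 0) :
    gram (ka r t tw) (kb r c β t T) = 4 * dd c β t T (2 * r ^ 2 * tw) / lam t ^ 4 := by
  simp only [gram, dot3, ka, kb, dd, f1, Matrix.cons_val_zero, Matrix.cons_val_one,
    Matrix.cons_val_two, Matrix.head_cons, Matrix.tail_cons]
  generalize gg c β t = g
  generalize lam t = l at ht ⊢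
  field_simp
  ring

lemma cross_comp (hr : r ≠ 0) (ht : lam t ≠ 0) (x y z : ℂ) :
    ka r t tw ⨯₃ kb r c β t T ⬝ᵥ ![x, y, z] =
      (8 * r ^ 2 * tw * gg c β t * x - 2 * lam t * gg c β t * y + 4 * lam t * T * z)
        / lam t ^ 2 := by
  simp only [dot3, cross0, cross1, cross2, ka, kb, f1, Matrix.cons_val_zero, Matrix.cons_val_one,
    Matrix.cons_val_two, Matrix.head_cons, Matrix.tail_cons]
  generalize gg c β t = g
  generalize lam t = l at ht ⊢
  field_simp
  ring

end comp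

end Vale.Agent.P218CN
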