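import Vale.Agent.P218CN.Eq

/-! The nonlinear operator of the collar system on a conical end and its smallness. -/

noncomputable section

namespace Vale.Agent.P218CN
open Metric Filter Topology Set

section ring
variable {R : Type*} [CommRing R]

/-- first order jet `(t, t_θ, 2 w t_w)` of the normalised jet `J`; `x = 1 / (2 w)` -/
def fj (x : R) (J : Fin 6 → R) : R × R × R := (J 0, J 1, x * J 3)

/-- first order jet of `χ η`, where `χ' = 2 w χ_w` -/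
def fc (x χ χ' : R) (J : Fin 6 → R) : R × R × R := (χ * J 0, χ * J 1, χ * (x * J 3) + χ' * J 0)

/-- the coefficients as functions of the first order jet -/
def pv (c β β' : R) (u : R × R × R) : Fin 5 → R :=
  ![a11 c β u.1 u.2.1, a12 c β u.1 u.2.1 u.2.2, a22 c β u.1 u.2.2, bb c β β' u.1 u.2.1 u.2.2 0,
    2 * gg c β u.1 * dd c β u.1 u.2.1 u.2.2]

/-- the first order part on normalised jets -/
def bJ (c β β' x : R) (J : Fin 6 → R) : R := bb c β β' (J 0) (J 1) (x * J 3) (J 3)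

/-- the shrinker operator on normalised jets -/
def EJ (c β β' x : R) (J : Fin 6 → R) : R :=
  EE c β β' (J 0) (J 1) (J 2) (x * J 3) (J 3) (J 4) (J 5)

/-- the principal part with the coefficients frozen at `u` -/
def aJ (c β : R) (u : R × R × R) (J : Fin 6 → R) : R :=
  a11 c β u.1 u.2.1 * J 4 + a12 c β u.1 u.2.1 u.2.2 * J 5 + a22 c β u.1 u.2.2 * J 2

/-- the outer equation: `s` are the jets of the shrinker, `J` those of the unknown,
`d` the input from the collar -/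
def NN (c β β' x χ χ' ρ : R) (s J d : Fin 6 → R) : R :=
  aJ c β (fj x s + fc x χ χ' J + fj x d) (s + J + d) + bJ c β β' x (s + J) +
    ρ * (bJ c β β' x (s + J + d) - bJ c β β' x (s + J))

lemma EJ_eq (c β β' x : R) (J : Fin 6 → R) :
    EJ c β β' x J = aJ c β (fj x J) J + bJ c β β' x J := rfl

lemma bJ_eq (c β β' x : R) (J : Fin 6 → R) :
    bJ c β β' x J = pv c β β' (fj x J) 3 - pv c β β' (fj x J) 4 * J 3 := by
  simp only [bJ, pv, fj, bb, Matrix.cons_val]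
  ring

lemma aJ_eq (c β β' : R) (u : R × R × R) (J : Fin 6 → R) :
    aJ c β u J = pv c β β' u 0 * J 4 + pv c β β' u 1 * J 5 + pv c β β' u 2 * J 2 := rfl

lemma fj_add (x : R) (J J' : Fin 6 → R) : fj x (J + J') = fj x J + fj x J' := by
  simp [fj, mul_add]

lemma pv_0 (c β β' : R) : pv c β β' 0 0 = 2 * c ^ 3 := by
  simp [pv, a11, lam, gg]
  ring
lemma pv_1 (c β β' : R) : pv c β β' 0 1 = 0 := by simp [pv, a12]
lemma pv_2 (c β β' : R) : pv c β β' 0 2 = 2 * c := by simp [pv, a22, lam, gg]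
lemma pv_4 (c β β' : R) : pv c β β' 0 4 = 2 * c ^ 3 := by
  simp [pv, dd, lam, gg]
  ring

lemma NN_zero (c β β' x χ χ' ρ : R) (s : Fin 6 → R) :
    NN c β β' x χ χ' ρ s 0 0 = EJ c β β' x s := by
  have h1 : fc x χ χ' (0 : Fin 6 → R) = 0 := by simp [fc]
  have h2 : fj x (0 : Fin 6 → R) = 0 := by simp [fj]
  simp [NN, EJ_eq, h1, h2]

variable {R' F : Type*} [CommRing R'] [FunLike F R R'] [RingHomClass F R R'] (φ : F)

lemma map_bJ (c β β' x : R) (J : Fin 6 → R) :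
    φ (bJ c β β' x J) = bJ (φ c) (φ β) (φ β') (φ x) (fun i => φ (J i)) := by
  simp [bJ, map_bb]

lemma map_EJ (c β β' x : R) (J : Fin 6 → R) :
    φ (EJ c β β' x J) = EJ (φ c) (φ β) (φ β') (φ x) (fun i => φ (J i)) := by
  simp [EJ, map_EE]

lemma map_NN (c β β' x χ χ' ρ : R) (s J d : Fin 6 → R) :
    φ (NN c β β' x χ χ' ρ s J d) = NN (φ c) (φ β) (φ β') (φ x) (φ χ) (φ χ') (φ ρ)
      (fun i => φ (s i)) (fun i => φ (J i)) (fun i => φ (d i)) := by
  simp [NN, aJ, bJ, fj, fc, map_bb, map_a11, map_a12, map_a22]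

end ring

section normed
variable {R : Type*} [NormedCommRing R] [NormedAlgebra ℂ R]

lemma contDiff_pv (c β β' : R) : ContDiff ℂ 1 (pv c β β') := by
  refine contDiff_pi.2 fun i => ?_
  fin_cases i <;> simp only [pv, a11, a12, a22, bb, dd, gg, hh, lam] <;> simp <;> fun_prop

lemma differentiable_NN {E : Type*} [NormedAddCommGroup E] [NormedSpace ℂ E]
    (c β β' x χ χ' ρ : R) (s : Fin 6 → R) {J d : E → Fin 6 → R} (hJ : Differentiable ℂ J)
    (hd : Differentiable ℂ d) : Differentiable ℂ fun z => NN c β β' x χ χ' ρ s (J z) (d z) := by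
  have h1 := differentiable_pi.1 hJ
  have h2 := differentiable_pi.1 hd
  simp only [NN, aJ, bJ, fj, fc, a11, a12, a22, bb, dd, gg, hh, lam, Prod.fst_add, Prod.snd_add,
    Pi.add_apply]
  fun_prop

lemma exists_lip (c β β' : R) : ∃ L r : ℝ, 0 < r ∧ 0 ≤ L ∧ ∀ u v, ‖u‖ ≤ r → ‖v‖ ≤ r → ∀ i,
    ‖pv c β β' u i‖ ≤ L ∧ ‖pv c β β' u i - pv c β β' v i‖ ≤ L * ‖u - v‖ := by
  obtain ⟨K, t, ht, hK⟩ := (contDiff_pv c β β').contDiffAt.exists_lipschitzOnWith (x := 0)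
  obtain ⟨r, hr, hs⟩ := nhds_basis_closedBall.mem_iff.1 ht
  have key : ∀ u v, ‖u‖ ≤ r → ‖v‖ ≤ r → ∀ i, ‖pv c β β' u i - pv c β β' v i‖ ≤ K * ‖u - v‖ :=
    fun u v hu hv i => (norm_le_pi_norm (pv c β β' u - pv c β β' v) i).trans (by
      simpa [dist_eq_norm] using hK.dist_le_mul u (hs (by simpa using hu)) v
        (hs (by simpa using hv)))
  refine ⟨‖pv c β β' 0‖ + K * r + K, r, hr, by positivity, fun u v hu hv i => ⟨?_, ?_⟩⟩
  · have h1 := key u 0 hu (by simpa using hr.le) i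
    have h2 := norm_le_pi_norm (pv c β β' 0) i
    have h3 := norm_le_insert' (pv c β β' u i) (pv c β β' 0 i)
    rw [sub_zero] at h1
    have h4 : (K : ℝ) * ‖u‖ ≤ K * r := by gcongr
    linarith [K.coe_nonneg]
  · refine (key u v hu hv i).trans ?_
    gcongr
    have : 0 ≤ ‖pv c β β' 0‖ + K * r := by positivity
    linarith

/-- the sizes of the fixed data -/
structure Small (K ε : ℝ) (x χ χ' ρ : R) (s : Fin 6 → R) : Prop where
  hx : ‖x‖ ≤ 1
  hχ : ‖χ‖ ≤ K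
  hρ : ‖ρ‖ ≤ K
  s0 : ‖s 0‖ ≤ ε
  s1 : ‖s 1‖ ≤ ε
  s2 : ‖s 2‖ ≤ ε
  s3 : ‖s 3‖ ≤ K
  s4 : ‖s 4‖ ≤ ε
  s5 : ‖s 5‖ ≤ ε
  sZ : ‖x * s 3‖ ≤ ε

theorem exists_est (c β β' : R) {K : ℝ} (hK : 1 ≤ K) : ∃ C ε0 : ℝ, 0 < C ∧ 0 < ε0 ∧
    ∀ ε r : ℝ, ε ≤ ε0 → 0 ≤ r → r ≤ ε → ∀ (x χ χ' ρ : R) (s J d : Fin 6 → R),
      Small K ε x χ χ' ρ s → ‖J‖ ≤ r → ‖fj x J‖ ≤ ε * r → ‖χ' * J 0‖ ≤ K * r → ‖d‖ ≤ ε * r →
      ‖NN c β β' x χ χ' ρ s J d - EJ c β β' x s - (2 * c ^ 3 * (J 4 - J 3) + 2 * c * J 2)‖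
        ≤ C * (ε * r) := by
  obtain ⟨L, r0, hr0, hL, h⟩ := exists_lip c β β'
  refine ⟨32 * (L + 1) * K ^ 2, min 1 (r0 / (4 * K)), by positivity, by positivity,
    fun ε r hε hr hrε x χ χ' ρ s J d H hJ hJ1 hχJ hd => ?_⟩
  have hε1 : ε ≤ 1 := hε.trans (min_le_left _ _)
  have hε0 : 0 ≤ ε := hr.trans hrε
  have hε2 : 4 * K * ε ≤ r0 := by
    have := hε.trans (min_le_right _ _)
    rw [le_div_iff₀ (by positivity)] at this
    linarith
  have her : ε * r ≤ r := mul_le_of_le_one_left hr hε1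
  have hKr : r ≤ K * r := le_mul_of_one_le_left hr hK
  have hKe : ε ≤ K * ε := le_mul_of_one_le_left hε0 hK
  have hKre : K * r ≤ K * ε := by gcongr
  have hJi : ∀ i, ‖J i‖ ≤ r := fun i => (norm_le_pi_norm J i).trans hJ
  have hdi : ∀ i, ‖d i‖ ≤ ε * r := fun i => (norm_le_pi_norm d i).trans hd
  have ns : ‖fj x s‖ ≤ ε := by simp [fj, Prod.norm_def, H.s0, H.s1, H.sZ]
  have nd : ‖fj x d‖ ≤ ε * r := by
    simp only [fj, Prod.norm_def, max_le_iff]
    exact ⟨hdi 0, hdi 1, (norm_mul_le _ _).trans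
      ((mul_le_of_le_one_left (norm_nonneg _) H.hx).trans (hdi 3))⟩
  have nc : ‖fc x χ χ' J‖ ≤ 2 * (K * r) := by
    simp only [fj, Prod.norm_def, max_le_iff] at hJ1
    have k : ∀ y : R, ‖y‖ ≤ ε * r → ‖χ * y‖ ≤ K * r := fun y hy =>
      norm_mul_le_of_le H.hχ (hy.trans her)
    simp only [fc, Prod.norm_def, max_le_iff]
    exact ⟨by linarith [k _ hJ1.1], by linarith [k _ hJ1.2.1],
      by linarith [norm_add_le_of_le (k _ hJ1.2.2) hχJ]⟩
  set u := fj x s + fc x χ χ' J + fj x d with hu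
  have nus : ‖u - fj x s‖ ≤ 3 * (K * r) := by
    rw [hu, add_assoc, add_sub_cancel_left]
    linarith [norm_add_le_of_le nc nd]
  have nu : ‖u‖ ≤ 4 * (K * ε) := by linarith [norm_le_insert' u (fj x s)]
  have n1 : ‖fj x (s + J)‖ ≤ 2 * ε := by
    rw [fj_add]; linarith [norm_add_le_of_le ns hJ1]
  have n2 : ‖fj x (s + J + d)‖ ≤ 3 * ε := by
    rw [fj_add]; linarith [norm_add_le_of_le n1 nd]
  have z : ‖(0 : R × R × R)‖ ≤ r0 := by simpa using hr0.le
  have pu := h u 0 (by linarith) z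
  have pus := h u (fj x s) (by linarith) (by linarith)
  have p1 := h (fj x (s + J)) 0 (by linarith) z
  have p1s := h (fj x (s + J)) (fj x s) (by linarith) (by linarith)
  have p21 := h (fj x (s + J + d)) (fj x (s + J)) (by linarith) (by linarith)
  rw [sub_zero] at pu p1
  rw [fj_add x s J, add_sub_cancel_left, ← fj_add] at p1s
  rw [fj_add x (s + J) d, add_sub_cancel_left, ← fj_add] at p21
  have qu : ∀ i, ‖pv c β β' u i - pv c β β' 0 i‖ ≤ L * (4 * (K * ε)) := fun i =>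
    (pu i).2.trans (by gcongr)
  have qus : ∀ i, ‖pv c β β' u i - pv c β β' (fj x s) i‖ ≤ L * (3 * (K * r)) := fun i =>
    (pus i).2.trans (by gcongr)
  have q1 : ‖pv c β β' (fj x (s + J)) 4 - pv c β β' 0 4‖ ≤ L * (2 * ε) :=
    (p1 4).2.trans (by gcongr)
  have q1s : ∀ i, ‖pv c β β' (fj x (s + J)) i - pv c β β' (fj x s) i‖ ≤ L * (ε * r) := fun i =>
    (p1s i).2.trans (by gcongr)
  have q21 : ∀ i, ‖pv c β β' (fj x (s + J + d)) i - pv c β β' (fj x (s + J)) i‖ ≤ L * (ε * r) :=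
    fun i => (p21 i).2.trans (by gcongr)
  have s3 : ‖s 3 + J 3‖ ≤ 2 * K := by linarith [norm_add_le_of_le H.s3 (hJi 3)]
  have e : NN c β β' x χ χ' ρ s J d - EJ c β β' x s - (2 * c ^ 3 * (J 4 - J 3) + 2 * c * J 2) =
      ((pv c β β' u 0 - pv c β β' 0 0) * J 4 + (pv c β β' u 1 - pv c β β' 0 1) * J 5 +
        (pv c β β' u 2 - pv c β β' 0 2) * J 2) +
      (pv c β β' u 0 * d 4 + pv c β β' u 1 * d 5 + pv c β β' u 2 * d 2) +
      ((pv c β β' u 0 - pv c β β' (fj x s) 0) * s 4 + (pv c β β' u 1 - pv c β β' (fj x s) 1) * s 5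
        + (pv c β β' u 2 - pv c β β' (fj x s) 2) * s 2) +
      ((pv c β β' (fj x (s + J)) 3 - pv c β β' (fj x s) 3) -
        (pv c β β' (fj x (s + J)) 4 - pv c β β' 0 4) * J 3 -
        (pv c β β' (fj x (s + J)) 4 - pv c β β' (fj x s) 4) * s 3) +
      ρ * ((pv c β β' (fj x (s + J + d)) 3 - pv c β β' (fj x (s + J)) 3) -
        (pv c β β' (fj x (s + J + d)) 4 - pv c β β' (fj x (s + J)) 4) * (s 3 + J 3) -
        pv c β β' (fj x (s + J + d)) 4 * d 3) := by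
    rw [NN, EJ_eq, ← hu, aJ_eq c β β', aJ_eq c β β', bJ_eq, bJ_eq, bJ_eq, pv_0, pv_1, pv_2, pv_4]
    simp only [Pi.add_apply]
    ring
  rw [e]
  refine (norm_add_le_of_le (norm_add_le_of_le (norm_add_le_of_le (norm_add_le_of_le
    (norm_add_le_of_le (norm_add_le_of_le (norm_mul_le_of_le (qu 0) (hJi 4))
      (norm_mul_le_of_le (qu 1) (hJi 5))) (norm_mul_le_of_le (qu 2) (hJi 2)))
    (norm_add_le_of_le (norm_add_le_of_le (norm_mul_le_of_le (pu 0).1 (hdi 4))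
      (norm_mul_le_of_le (pu 1).1 (hdi 5))) (norm_mul_le_of_le (pu 2).1 (hdi 2))))
    (norm_add_le_of_le (norm_add_le_of_le (norm_mul_le_of_le (qus 0) H.s4)
      (norm_mul_le_of_le (qus 1) H.s5)) (norm_mul_le_of_le (qus 2) H.s2)))
    (norm_sub_le_of_le (norm_sub_le_of_le (q1s 3) (norm_mul_le_of_le q1 (hJi 3)))
      (norm_mul_le_of_le (q1s 4) H.s3)))
    (norm_mul_le_of_le H.hρ (norm_sub_le_of_le (norm_sub_le_of_le (q21 3)
      (norm_mul_le_of_le (q21 4) s3)) (norm_mul_le_of_le (p21 4).1 (hdi 3))))).trans ?_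
  have t0 : 0 ≤ ε * r := mul_nonneg hε0 hr
  have t1 : 0 ≤ L * (ε * r) := mul_nonneg hL t0
  have t2 : L * (ε * r) ≤ K * (L * (ε * r)) := le_mul_of_one_le_left t1 hK
  have t3 : K * (L * (ε * r)) ≤ K * (K * (L * (ε * r))) :=
    le_mul_of_one_le_left (t1.trans t2) hK
  have t4 : 0 ≤ K ^ 2 * (ε * r) := by positivity
  linarith

end normed

end Vale.Agent.P218CN
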