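import Vale.Agent.P218CN.SJet
import Vale.Agent.P218CN.Fun

/-! The family of solutions of the outer equation on a conical end. -/

noncomputable section

namespace Vale.Agent.P218CN
open Set Filter Topology Metric Vale.Agent.P218CO Vale.Agent.P218GA Vale.Agent.P218XI
open Vale.Agent.P218EN WA Vale.Agent.P218VA Vale.Agent.P218MP

lemma nj_add (w : ℝ) (j k : J2 ℂ) : nj w (j + k) = nj w j + nj w k := by
  funext i
  fin_cases i <;> simp [nj, mul_add]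

lemma x_mul {w : ℝ} (hw : w ≠ 0) (z : ℂ) : (1 / (2 * w) : ℂ) * (4 * w ^ 2 * z) = 2 * w * z := by
  have : (w : ℂ) ≠ 0 := Complex.ofReal_ne_zero.2 hw
  field_simp
  norm_num

lemma bJ_nj (c β β' : ℂ) {w : ℝ} (hw : w ≠ 0) (j : J2 ℂ) : bJ c β β' (1 / (2 * w)) (nj w j) =
    P218CN.bb c β β' j.1.1 j.1.2.2 (2 * w * j.1.2.1) (4 * w ^ 2 * j.1.2.1) := by
  simp only [bJ, nj, Matrix.cons_val, x_mul hw]

lemma END_eq (c : ℂ) (β β' : ℝ → ℂ) (jt : ℝ × ℝ → J2 ℂ) (s : ℝ) {p : ℝ × ℝ} (hw : p.1 ≠ 0)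
    (jv : T3 ℂ) (jμ : J2 ℂ) : (cOp c β β' jt).END s p jv jμ =
      NN c (β p.2) (β' p.2) (1 / (2 * p.1)) (c1 s p.1).1 (2 * p.1 * (c1 s p.1).2.1) (rh s p.1)
        (nj p.1 (jt p)) (nj p.1 jμ) (nj p.1 (jm1 (c2 s p.1) jv, jcm (c2 s p.1) jv)) := by
  have e1 : fj (1 / (2 * p.1) : ℂ) (nj p.1 (jt p)) +
      fc (1 / (2 * p.1) : ℂ) (c1 s p.1).1 (2 * p.1 * (c1 s p.1).2.1) (nj p.1 jμ) +
      fj (1 / (2 * p.1) : ℂ) (nj p.1 (jm1 (c2 s p.1) jv, jcm (c2 s p.1) jv)) =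
      (((jt p).1 + u1j s p.1 jv jμ.1).1, ((jt p).1 + u1j s p.1 jv jμ.1).2.2,
        2 * p.1 * ((jt p).1 + u1j s p.1 jv jμ.1).2.1) := by
    simp only [fj, fc, nj, Matrix.cons_val, x_mul hw, u1j, jm1, Prod.mk_add_mk, Prod.fst_add,
      Prod.snd_add, Prod.ext_iff]
    refine ⟨?_, ?_, ?_⟩ <;> ring
  have e2 : rh s p.1 * (cOp c β β' jt).b p (u1j s p.1 jv jμ.1) =
      rh s p.1 * (cOp c β β' jt).b p (jμ.1 + jm1 (c2 s p.1) jv) := by
    rcases le_total p.1 (s + 4) with h | h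
    · rw [rh_lo h, zero_mul, zero_mul]
    · rw [u1j, c1_hi h, jm1_one, add_comm]
  rw [NN, e1, ← nj_add, ← nj_add, bJ_nj _ _ _ hw, bJ_nj _ _ _ hw, EndOp.END, mul_sub, e2]
  simp only [cOp, pair, aJ, nj, Matrix.cons_val, Prod.fst_add, Prod.snd_add, add_assoc]
  ring

lemma IsJet.ev_nj {a : ℝ} (ha : 1 ≤ a) {J : Fin 6 → WA} (h : IsJet a J) {p : ℝ × ℝ}
    (hp : a < p.1) (i : Fin 6) : (J i).ev p.1 p.2 = nj p.1 (pj (j0 J) p) i := by
  obtain ⟨h1, h2, h3, h4, h5⟩ := (h.jet2 ha).eq_pd (by rw [interior_Ici]; exact hp)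
    (h.contDiffAt ha hp) (Eventually.of_forall fun _ => rfl)
  have hw : (p.1 : ℂ) ≠ 0 := Complex.ofReal_ne_zero.2 (by linarith)
  simp only [P218CO.cj, h1, h2, h3, h4, h5, nj]
  fin_cases i <;> simp [j0, jt, jtt, jw, jww, jwt] <;> field_simp

lemma IsJet.neg {a : ℝ} {J : Fin 6 → WA} (h : IsJet a J) : IsJet a (-J) where
  t1 k w hw := by simp [h.t1 k w hw]
  t2 k w hw := by simp [h.t2 k w hw]
  t5 k w hw := by simp [h.t5 k w hw, neg_div]
  d0 k w hw := by simpa [neg_div] using (h.d0 k w hw).neg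
  d1 k w hw := by simpa [neg_div] using (h.d1 k w hw).fun_neg

lemma exists_cb {g : ℝ → ℂ} (hg : Continuous g) {s B : ℝ} (hb : ∀ w, s ≤ w → ‖g w‖ ≤ B) :
    ∃ x : WA, (∀ w θ, x.ev w θ = g (max s w)) ∧ ‖x‖ ≤ B :=
  ⟨sc (BoundedContinuousFunction.ofNormedAddCommGroup (fun w => g (max s w)) (by fun_prop) B
    fun w => hb _ (le_max_left _ _)), fun w θ => ev_sc _ w θ, (norm_sc _).trans_le
      (BoundedContinuousFunction.norm_ofNormedAddCommGroup_le _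
        ((norm_nonneg _).trans (hb s le_rfl)) _)⟩

lemma exists_cb' {g : ℝ → ℂ} (hg : Continuous g) (s : ℝ) {b : ℝ} (h0 : ∀ w, b ≤ w → g w = 0) :
    ∃ x : WA, ∀ w θ, x.ev w θ = g (max s w) := by
  obtain ⟨B, hB⟩ := (isCompact_Icc (a := s) (b := b)).exists_bound_of_continuousOn hg.continuousOn
  obtain ⟨x, hx, -⟩ := exists_cb hg (s := s) (B := max B 0) fun w hw => by
    rcases le_total w b with h | h
    · exact (hB w ⟨hw, h⟩).trans (le_max_left _ _)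
    · rw [h0 w h, norm_zero]; exact le_max_right _ _
  exact ⟨x, hx⟩

lemma exists_c1_bound : ∃ K : ℝ, 1 ≤ K ∧ ∀ s w : ℝ, 1 ≤ s → s ≤ w →
    ‖2 * w * (c1 s w).2.1‖ ≤ K * s := by
  obtain ⟨B, hB⟩ := (isCompact_Icc (a := 0) (b := 4)).exists_bound_of_continuousOn
    (continuous_d012 (contDiff_st2 (0 + 3))).snd.fst.continuousOn
  have hB0 : 0 ≤ B := (norm_nonneg _).trans (hB 0 (by simp))
  refine ⟨1 + 10 * B, by linarith, fun s w hs hw => ?_⟩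
  rcases le_total w (s + 4) with h | h
  · have e : (c1 s w).2.1 = (d012 (st (0 + 3)) (w - s)).2.1 := by
      have : st (s + 3) = fun w => st (0 + 3) (w - s) := by
        funext w; simp only [st]; congr 1; ring
      simp only [c1, d012, this, deriv_comp_sub_const]
    have h1 := hB (w - s) ⟨by linarith, by linarith⟩
    rw [e, norm_mul, norm_mul, Complex.norm_real, Real.norm_of_nonneg (by linarith)]
    simp only [Complex.norm_ofNat]
    nlinarith [mul_le_mul_of_nonneg_left h1 (show 0 ≤ 2 * w by linarith)]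
  · rw [c1_hi h]
    simp only [mul_zero, norm_zero]
    positivity

variable {V : Type*} [NormedAddCommGroup V] [NormedSpace ℂ V]

/-- `D` represents the first order jets `jv` on the collar; `RV` are the real data -/
structure ColMap (s : ℝ) (RV : Set V) (jv : V → ℝ × ℝ → T3 ℂ) (D : V →L[ℂ] T3 WA) : Prop where
  ev : ∀ v (p : ℝ × ℝ), p.1 ∈ Icc s (s + 6) →
    ((D v).1.ev p.1 p.2, (D v).2.1.ev p.1 p.2, (D v).2.2.ev p.1 p.2) = jv v p
  real : ∀ v ∈ RV, WA.cj (D v).1 = (D v).1 ∧ WA.cj (D v).2.1 = (D v).2.1 ∧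
    WA.cj (D v).2.2 = (D v).2.2

theorem ColMap.exists_d {s : ℝ} {RV : Set V} {jv : V → ℝ × ℝ → T3 ℂ} {D : V →L[ℂ] T3 WA}
    (h : ColMap s RV jv D) : ∃ d : V →L[ℂ] (Fin 6 → WA), (∀ v (p : ℝ × ℝ), s ≤ p.1 → ∀ i,
      (d v i).ev p.1 p.2 = nj p.1 (jm1 (c2 s p.1) (jv v p), jcm (c2 s p.1) (jv v p)) i) ∧
      ∀ v ∈ RV, cjv (d v) = d v := by
  have hc : Continuous (c2 s) := continuous_d012 (contDiff_st2' _)
  have k : ∀ (t : ℝ) (n : ℕ) (L : T3 ℂ → ℂ), Continuous L → L (0, 0, 0) = 0 →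
      (∀ w, ∃ r : ℝ, L (c2 s w) = r) → ∃ x : WA, WA.cj x = x ∧
        ∀ w θ, s ≤ w → x.ev w θ = t * w ^ n * L (c2 s w) := fun t n L hL h0 hr => by
    obtain ⟨x, hx⟩ := exists_cb' (g := fun w : ℝ => t * w ^ n * L (c2 s w)) (by fun_prop) s
      (b := s + 6) fun w hw => by rw [c2_hi hw, h0, mul_zero]
    refine ⟨x, cj_eq_of_real fun w θ => ?_, fun w θ hw => by rw [hx, max_eq_right hw]⟩
    obtain ⟨r, hr⟩ := hr (max s w)
    exact ⟨t * max s w ^ n * r, by rw [hx, hr]; push_cast; rfl⟩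
  obtain ⟨x0, r0, e0⟩ := k 1 0 _ continuous_fst rfl fun _ => ⟨_, rfl⟩
  obtain ⟨x1, r1, e1⟩ := k 4 2 _ continuous_fst rfl fun _ => ⟨_, rfl⟩
  obtain ⟨x2, r2, e2⟩ := k 4 2 _ continuous_snd.fst rfl fun _ => ⟨_, rfl⟩
  obtain ⟨x3, r3, e3⟩ := k 4 2 _ continuous_snd.snd rfl fun _ => ⟨_, rfl⟩
  obtain ⟨x4, r4, e4⟩ := k 2 1 _ continuous_snd.fst rfl fun _ => ⟨_, rfl⟩
  obtain ⟨x5, r5, e5⟩ := k 8 2 _ continuous_snd.fst rfl fun _ => ⟨_, rfl⟩
  let p0 : T3 WA →L[ℂ] WA := ContinuousLinearMap.fst ℂ _ _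
  let p1 : T3 WA →L[ℂ] WA := (ContinuousLinearMap.fst ℂ _ _).comp (ContinuousLinearMap.snd ℂ _ _)
  let p2 : T3 WA →L[ℂ] WA := (ContinuousLinearMap.snd ℂ _ _).comp (ContinuousLinearMap.snd ℂ _ _)
  let L : T3 WA →L[ℂ] (Fin 6 → WA) := ContinuousLinearMap.pi
    ![x0 • p0, x0 • p2, 0, x1 • p1 + x2 • p0, x5 • p1 + x3 • p0, x4 • p2]
  have hL : ∀ y : T3 WA, L y = ![x0 * y.1, x0 * y.2.2, 0, x1 * y.2.1 + x2 * y.1,
      x5 * y.2.1 + x3 * y.1, x4 * y.2.2] := fun y => by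
    funext i
    fin_cases i <;> rfl
  refine ⟨L.comp D, fun v p hp i => ?_, fun v hv => ?_⟩
  · rw [ContinuousLinearMap.comp_apply, hL]
    rcases le_total p.1 (s + 6) with h6 | h6
    · rw [← h.ev v p ⟨hp, h6⟩]
      fin_cases i <;> simp [nj, jm1, jcm, ev_mul, ev_add, ev_zero, e0 _ _ hp, e1 _ _ hp, e2 _ _ hp,
        e3 _ _ hp, e4 _ _ hp, e5 _ _ hp] <;> ring
    · fin_cases i <;> simp [nj, jm1, jcm, ev_mul, ev_add, ev_zero, e0 _ _ hp, e1 _ _ hp, e2 _ _ hp,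
        e3 _ _ hp, e4 _ _ hp, e5 _ _ hp, c2_hi h6]
  · obtain ⟨h1, h2, h3⟩ := h.real v hv
    rw [ContinuousLinearMap.comp_apply, hL]
    funext i
    have a0 : WA.cj 0 = 0 := map_zero cjR
    have a1 : ∀ x y, WA.cj (x + y) = WA.cj x + WA.cj y := map_add cjR
    have a2 : ∀ x y, WA.cj (x * y) = WA.cj x * WA.cj y := map_mul cjR
    fin_cases i <;> simp [cjv, a0, a1, a2, h1, h2, h3, r0, r1, r2, r3, r4, r5]

/-- The family of solutions on a conical end: `J v` are the normalised jets of the solution. -/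
structure ConeFam (o : EndOp) (s δ C : ℝ) (RV : Set V) (jv : V → ℝ × ℝ → T3 ℂ)
    (J : V → Fin 6 → WA) : Prop where
  pos : 0 < δ
  one_le : 1 ≤ s
  holo : DifferentiableOn ℂ J (ball 0 δ)
  zero : J 0 = 0
  bd : ∀ v ∈ ball (0 : V) δ, ‖J v‖ ≤ C * ‖v‖
  jet : ∀ v ∈ ball (0 : V) δ, IsJet s (J v)
  ini : ∀ v ∈ ball (0 : V) δ, ∀ θ, j0 (J v) (s, θ) = 0
  sol : ∀ v ∈ ball (0 : V) δ, EndSol o s (Ioi s) (jv v) (j0 (J v))
  real : ∀ v ∈ ball (0 : V) δ, v ∈ RV → cjv (J v) = J v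
  djet : ∀ v ∈ ball (0 : V) δ, ∀ h, IsJet s (fderiv ℂ J v h)

variable {S : Set E3} {w : E3 → ℝ} {δ C : ℝ} {ι κ M : Type} [TopologicalSpace M]
  [ChartedSpace E2 M] (m : Model S w δ C ι κ M)

/-- **Solution of the outer problem on a conical end.** -/
theorem exists_coneFam (j : κ) : ∀ᶠ s in atTop, ∀ (V : Type) [NormedAddCommGroup V]
    [NormedSpace ℂ V] (RV : Set V) (jv : V → ℝ × ℝ → T3 ℂ) (D : V →L[ℂ] T3 WA),
    ColMap s RV jv D → ∃ (δ C : ℝ) (J : V → Fin 6 → WA),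
      ConeFam (coneOp m j) s δ C RV jv J := by
  obtain ⟨β, β', K1, hK1, h1⟩ := exists_sj m j
  obtain ⟨K2, hK2, h2⟩ := exists_c1_bound
  obtain ⟨a0, s0, H0, -⟩ := (h1 1 one_pos).exists
  obtain ⟨ε, hε, h3⟩ := exists_outer (m.L j).c_pos H0.rb H0.rb' (K := max K1 K2)
    (hK1.trans (le_max_left _ _))
  filter_upwards [h1 ε hε, eventually_ge_atTop (ε ^ 2)⁻¹, eventually_ge_atTop 1] with s
    ⟨sj, H, n0, n1, n2, n3, n4, n5, nZ⟩ hs hs1 V _ _ RV jv D hD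
  obtain ⟨d, hd, rd⟩ := hD.exists_d
  have hc : Continuous (c1 s) := continuous_d012 (contDiff_st2 _)
  have b1 : ∀ a w, ‖(st a w : ℂ)‖ ≤ max K1 K2 := fun a w => by
    rw [Complex.norm_real, Real.norm_of_nonneg (st_nonneg _ _)]
    exact (st_le_one _ _).trans (hK1.trans (le_max_left _ _))
  obtain ⟨χ, eχ, nχ⟩ := exists_cb hc.fst (s := s) fun w _ => b1 (s + 3) w
  obtain ⟨χ', eχ', nχ'⟩ := exists_cb (g := fun w : ℝ => 2 * w * (c1 s w).2.1)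
    ((continuous_const.mul Complex.continuous_ofReal).mul hc.snd.fst) fun w hw => h2 s w hs1 hw
  obtain ⟨ρ, eρ, nρ⟩ := exists_cb (g := rh s)
    (Complex.continuous_ofReal.comp (contDiff_st2 _).continuous) (s := s) fun w _ => b1 (s + 4) w
  obtain ⟨O, hO⟩ := h3 ε hε le_rfl s (by rwa [inv_le_iff_one_le_mul₀' (by positivity)] at hs)
    χ χ' ρ sj ⟨(norm_sc _).trans_le ((norm_xB_le hs1).trans (by
      rw [div_le_one (by linarith)]; linarith)), nχ, nρ, n0, n1, n2,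
      n3.trans (le_max_left _ _), n4, n5, nZ⟩ (nχ'.trans (by gcongr; exact le_max_right _ _))
    (cj_eq_of_real fun w θ => ⟨_, eχ w θ⟩) (cj_eq_of_real fun w θ =>
      ⟨2 * max s w * deriv (st (s + 3)) (max s w), by
        rw [eχ', Complex.ofReal_mul, Complex.ofReal_mul]; rfl⟩)
    (cj_eq_of_real fun w θ => ⟨_, eρ w θ⟩) H.rs
  have hb : ∀ v ∈ ball (0 : V) (ε ^ 2 / (‖d‖ + 1)), d v ∈ ball (0 : Fin 6 → WA) (ε ^ 2) := by
    intro v hv
    rw [mem_ball_zero_iff] at hv ⊢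
    rw [lt_div_iff₀ (by positivity)] at hv
    nlinarith [d.le_opNorm v, norm_nonneg v]
  refine ⟨ε ^ 2 / (‖d‖ + 1), 2 / ε * ‖d‖, fun v => O (d v), by positivity, hs1,
    hO.holo.comp d.differentiable.differentiableOn hb, by simp [hO.zero], fun v hv => ?_,
    fun v hv => hO.jet _ (hb v hv), fun v hv θ => ev_eq_zero (hO.ini _ (hb v hv)) θ,
    fun v hv => ⟨fun w θ => ev_periodic _ w θ,
      fun p hp => (hO.jet _ (hb v hv)).contDiffAt hs1 hp, fun p hp => ?_⟩,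
    fun v hv hr => ?_, fun v hv h => ?_⟩
  · refine (hO.bd _ (hb v hv)).trans ?_
    rw [mul_assoc]
    gcongr
    exact d.le_opNorm v
  · have hp' : s ≤ p.1 := le_of_lt hp
    have h4 := congrArg (evA p.1 p.2) ((hO.eq _ (hb v hv)).trans H.eq)
    rw [map_NN, map_zero] at h4
    simp only [evA_apply, ev_rW, H.b, H.b', H.ev, ev_sc, xB_of_le hs1 hp', eχ, eχ', eρ,
      max_eq_right hp', hd v p hp', (hO.jet _ (hb v hv)).ev_nj hs1 hp] at h4
    rw [coneOp, END_eq _ _ _ _ _ (by linarith : p.1 ≠ 0)]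
    exact h4
  · rw [← hO.real _ (hb v hv), rd v hr]
  · have := ((hO.holo.differentiableAt (isOpen_ball.mem_nhds (hb v hv))).hasFDerivAt.comp v
      d.hasFDerivAt).fderiv
    change fderiv ℂ (fun v => O (d v)) v = _ at this
    rw [this]
    exact hO.djet _ (hb v hv) _

end Vale.Agent.P218CN
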