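import Vale.Agent.P218CN.Mode

/-! The Green operator of the model equation on a conical end in the Wiener algebra. -/

namespace Vale.Agent.P218CN
open Filter Topology Set Complex Vale.Agent.P218EN WA

/-- a family of operators on the modes -/
noncomputable def blk (L : ℤ → CB →ₗ[ℂ] CB) (C : ℝ) (h : ∀ k f, ‖L k f‖ ≤ C * ‖f‖) :
    WA →L[ℂ] WA :=
  LinearMap.mkContinuous ⟨⟨fun x => WA.mk (fun k => L k (x.co k))
    (Summable.of_nonneg_of_le (fun _ => norm_nonneg _) (fun k => h k _) (x.summable.mul_left C)),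
    fun _ _ => ext' fun _ => by simp⟩, fun _ _ => ext' fun _ => by simp⟩ C fun x => by
      rw [x.norm_eq, ← tsum_mul_left]
      exact norm_le_of (x.summable.mul_left C) fun k => h k _

theorem co_blk (L : ℤ → CB →ₗ[ℂ] CB) (C : ℝ) (h : ∀ k f, ‖L k f‖ ≤ C * ‖f‖) (x : WA) (k : ℤ) :
    (blk L C h x).co k = L k (x.co k) := rfl

theorem norm_blk_le (L : ℤ → CB →ₗ[ℂ] CB) (C : ℝ) (h : ∀ k f, ‖L k f‖ ≤ C * ‖f‖) (x : WA) :
    ‖blk L C h x‖ ≤ C * ‖x‖ := by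
  rw [x.norm_eq, ← tsum_mul_left]
  exact norm_le_of (x.summable.mul_left C) fun k => h k _

theorem cj_blk (L : ℤ → CB →ₗ[ℂ] CB) (C : ℝ) (h : ∀ k f, ‖L k f‖ ≤ C * ‖f‖)
    (hs : ∀ k f, L k (star f) = star (L (-k) f)) (x : WA) :
    blk L C h (cj x) = cj (blk L C h x) := ext' fun k => hs k _

/-- `1 / (2 w)` on `[a, ∞)` -/
noncomputable def xB (a : ℝ) : CB :=
  BoundedContinuousFunction.ofNormedAddCommGroup (fun w => ((1 / (2 * max (max a 1) w) : ℝ) : ℂ))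
    (continuous_ofReal.comp (Continuous.div continuous_const (by fun_prop) fun w => by
      have := le_max_left (max a 1) w
      have := le_max_right a 1
      linarith)) 1 fun w => by
      have := le_max_left (max a 1) w
      have := le_max_right a 1
      rw [norm_real, Real.norm_of_nonneg (by positivity), div_le_one (by positivity)]
      linarith

theorem xB_apply {a : ℝ} (ha : 1 ≤ a) (w : ℝ) : xB a w = ((1 / (2 * max a w) : ℝ) : ℂ) := by
  change ((1 / (2 * max (max a 1) w) : ℝ) : ℂ) = _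
  rw [max_eq_left ha]

theorem xB_of_le {a w : ℝ} (ha : 1 ≤ a) (hw : a ≤ w) : xB a w = 1 / (2 * w) := by
  rw [xB_apply ha, max_eq_right hw]; push_cast; rfl

theorem norm_xB_apply {a : ℝ} (ha : 1 ≤ a) (w : ℝ) : ‖xB a w‖ = 1 / (2 * max a w) := by
  have := le_max_left a w
  rw [xB_apply ha, norm_real, Real.norm_of_nonneg (by positivity)]

theorem norm_xB_le {a : ℝ} (ha : 1 ≤ a) : ‖xB a‖ ≤ 1 / (2 * a) :=
  (BoundedContinuousFunction.norm_le (by positivity)).2 fun w => by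
    rw [norm_xB_apply ha]
    have := le_max_left a w
    gcongr

theorem star_xB (a : ℝ) : star (xB a) = xB a :=
  BoundedContinuousFunction.ext fun _ => conj_ofReal _

/-- `J = (η, η_θ, η_θθ, 4 w ^ 2 η_w, 4 w ^ 2 η_ww, 2 w η_wθ)` coefficientwise on `[a, ∞)` -/
structure IsJet (a : ℝ) (J : Fin 6 → WA) : Prop where
  t1 : ∀ k w, a ≤ w → (J 1).co k w = k * I * (J 0).co k w
  t2 : ∀ k w, a ≤ w → (J 2).co k w = k * I * (J 1).co k w
  t5 : ∀ k w, a ≤ w → (J 5).co k w = k * I * ((J 3).co k w / (2 * w))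
  d0 : ∀ k w, a ≤ w → HasDerivWithinAt ((J 0).co k) ((J 3).co k w / (4 * w ^ 2)) (Ici a) w
  d1 : ∀ k w, a ≤ w → HasDerivWithinAt (fun s : ℝ => (J 3).co k s / (4 * s ^ 2))
    ((J 4).co k w / (4 * w ^ 2)) (Ici a) w

/-- the Green operator `G` with its error `M` -/
structure Green (a c : ℝ) (G : Fin 6 → WA →L[ℂ] WA) (M : WA →L[ℂ] WA) : Prop where
  jet : ∀ f, IsJet a fun i => G i f
  ini : ∀ f k, (G 0 f).co k a = 0
  eq : ∀ f, G 4 f - G 3 f + ((c : ℂ) ^ 2)⁻¹ • G 2 f = f + M f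
  b0 : ∀ f, ‖G 0 f‖ ≤ 1 / (4 * a) * ‖f‖
  b1 : ∀ f, ‖G 1 f‖ ≤ c / √a * ‖f‖
  b2 : ∀ f, ‖G 2 f‖ ≤ c ^ 2 * ‖f‖
  b3 : ∀ f, ‖G 3 f‖ ≤ 2 * ‖f‖
  b4 : ∀ f, ‖G 4 f‖ ≤ 6 * ‖f‖
  b5 : ∀ f, ‖G 5 f‖ ≤ 2 * c * ‖f‖
  bM : ∀ f, ‖M f‖ ≤ 2 / a * ‖f‖
  cjG : ∀ i f, G i (cj f) = cj (G i f)
  cjM : ∀ f, M (cj f) = cj (M f)

theorem exists_mode {a : ℝ} (ha : 0 < a) {κ : ℝ} (hκ : 0 ≤ κ) : ∃ L P : CB →ₗ[ℂ] CB, ∀ f,
    Sol a κ f (L f) (P f) ∧ ‖L f‖ ≤ 1 / (4 * a) * ‖f‖ ∧ κ * ‖L f‖ ≤ ‖f‖ ∧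
      ∀ w, ‖P f w‖ ≤ 8 * max a w ^ 2 * ps κ (max a w) * ‖f‖ := by
  choose η p hs hb using exists_sol ha hκ
  refine ⟨⟨⟨η, fun f g => ((hs _).unique ha hκ ((hs f).add (hs g))).1⟩,
    fun c f => ((hs _).unique ha hκ ((hs f).smul c)).1⟩,
    ⟨⟨p, fun f g => ((hs _).unique ha hκ ((hs f).add (hs g))).2⟩,
    fun c f => ((hs _).unique ha hκ ((hs f).smul c)).2⟩, fun f => ⟨hs f, ?_, ?_, fun w => ?_⟩⟩
  · refine (BoundedContinuousFunction.norm_le (by positivity)).2 fun w => ?_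
    change ‖η f w‖ ≤ _
    rw [(hs f).cl0, one_div_mul_eq_div]
    exact (hb f _ (le_max_left a w)).1
  · have : ‖(κ : ℂ) • η f‖ ≤ ‖f‖ := by
      refine (BoundedContinuousFunction.norm_le (by positivity)).2 fun w => ?_
      rw [BoundedContinuousFunction.smul_apply, norm_smul, norm_real, Real.norm_of_nonneg hκ,
        (hs f).cl0]
      exact (hb f _ (le_max_left a w)).2.1
    rwa [norm_smul, norm_real, Real.norm_of_nonneg hκ] at this
  · change ‖p f w‖ ≤ _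
    rw [(hs f).cl1]
    exact (hb f _ (le_max_left a w)).2.2

theorem exists_mB {a : ℝ} (ha : 0 < a) {κ : ℝ} (hκ : 0 ≤ κ) :
    ∃ m : CB, (∀ w, m w = ((2 * κ / rt κ (max a w) : ℝ) : ℂ)) ∧ ‖m‖ ≤ 2 / a * κ := by
  have h1 : ∀ w, a ≤ rt κ (max a w) := fun w => (le_max_left a w).trans (le_rt hκ _)
  have h2 : ∀ w, ‖((2 * κ / rt κ (max a w) : ℝ) : ℂ)‖ ≤ 2 / a * κ := fun w => by
    have := h1 w
    have : 0 < rt κ (max a w) := by linarith
    rw [norm_real, Real.norm_of_nonneg (by positivity), div_mul_eq_mul_div]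
    gcongr
  refine ⟨BoundedContinuousFunction.ofNormedAddCommGroup _ (continuous_ofReal.comp
    (Continuous.div continuous_const ((continuous_rt κ).comp (by fun_prop)) fun w =>
      (ha.trans_le (h1 w)).ne')) _ h2, fun _ => rfl,
    BoundedContinuousFunction.norm_ofNormedAddCommGroup_le _ (by positivity) _⟩

theorem exists_green {a c : ℝ} (ha : 1 ≤ a) (hc : 0 < c) : ∃ G M, Green a c G M := by
  have ha0 : 0 < a := one_pos.trans_le ha
  set κ : ℤ → ℝ := fun k => (k : ℝ) ^ 2 / c ^ 2 with hκ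
  have hκ0 : ∀ k, 0 ≤ κ k := fun k => by positivity
  have hκn : ∀ k, κ (-k) = κ k := fun k => by simp [hκ]
  have hκs : ∀ k : ℤ, ‖(k : ℂ) * I‖ = c * √(κ k) := fun k => by
    rw [norm_mul, norm_I, mul_one, norm_intCast, hκ, Real.sqrt_div (by positivity),
      Real.sqrt_sq_eq_abs, Real.sqrt_sq hc.le]
    field_simp
  choose L P h using fun k => exists_mode ha0 (hκ0 k)
  choose m hm hmb using fun k => exists_mB ha0 (hκ0 k)
  have hst : ∀ k f, L k (star f) = star (L (-k) f) ∧ P k (star f) = star (P (-k) f) := fun k f =>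
    (h k _).1.unique ha0 (hκ0 k) (hκn k ▸ (h (-k) f).1.star)
  have hms : ∀ k, m k = star (m (-k)) := fun k => BoundedContinuousFunction.ext fun w => by
    rw [BoundedContinuousFunction.star_apply, hm, hm, hκn]; exact (conj_ofReal _).symm
  have n1 : ∀ (k : ℤ) f, ‖(((k : ℂ) * I) • L k) f‖ ≤ c / √a * ‖f‖ := fun k f => by
    rw [LinearMap.smul_apply, norm_smul, hκs]
    have h1 := (h k f).2.1
    have h2 := (h k f).2.2.1
    have h3 : (√(κ k) * ‖L k f‖) ^ 2 ≤ (‖f‖ / √a) ^ 2 := by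
      rw [mul_pow, div_pow, Real.sq_sqrt (hκ0 k), Real.sq_sqrt ha0.le]
      calc κ k * ‖L k f‖ ^ 2 = (κ k * ‖L k f‖) * ‖L k f‖ := by ring
        _ ≤ ‖f‖ * (1 / (4 * a) * ‖f‖) := by gcongr
        _ = ‖f‖ ^ 2 / (4 * a) := by ring
        _ ≤ _ := by gcongr; linarith
    have h4 := le_of_sq_le_sq h3 (by positivity)
    calc c * √(κ k) * ‖L k f‖ = c * (√(κ k) * ‖L k f‖) := by ring
      _ ≤ c * (‖f‖ / √a) := by gcongr
      _ = _ := by ring
  have n2 : ∀ (k : ℤ) f, ‖(((k : ℂ) * I * (k * I)) • L k) f‖ ≤ c ^ 2 * ‖f‖ := fun k f => by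
    rw [LinearMap.smul_apply, norm_smul, norm_mul, hκs]
    have h2 := (h k f).2.2.1
    have h3 := Real.mul_self_sqrt (hκ0 k)
    calc c * √(κ k) * (c * √(κ k)) * ‖L k f‖ = c ^ 2 * ((√(κ k) * √(κ k)) * ‖L k f‖) := by ring
      _ ≤ _ := by rw [h3]; gcongr
  have n3 : ∀ k f, ‖P k f‖ ≤ 2 * ‖f‖ := fun k f => by
    refine (BoundedContinuousFunction.norm_le (by positivity)).2 fun w => ((h k f).2.2.2 w).trans ?_
    have h2 : 0 < max a w := ha0.trans_le (le_max_left a w)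
    have h1 := ps_le (hκ0 k) h2
    gcongr
    calc 8 * max a w ^ 2 * ps (κ k) (max a w) ≤ 8 * max a w ^ 2 * (1 / (4 * max a w ^ 2)) := by
          gcongr
      _ = 2 := by field_simp; norm_num
  have n5 : ∀ (k : ℤ) f, ‖(((k : ℂ) * I) • (LinearMap.mulLeft ℂ (xB a) ∘ₗ P k)) f‖ ≤ 2 * c * ‖f‖ :=
    fun k f => by
    refine (BoundedContinuousFunction.norm_le (by positivity)).2 fun w => ?_
    change ‖(k : ℂ) * I * (xB a w * P k f w)‖ ≤ _
    have h2 : 0 < max a w := ha0.trans_le (le_max_left a w)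
    have h1 := (h k f).2.2.2 w
    have h3 := sqrt_le_rt (κ := κ k) (max a w)
    have h4 := Real.sqrt_nonneg (κ k)
    have h5 : 0 < max a w + rt (κ k) (max a w) := by linarith
    rw [norm_mul, hκs, norm_mul, norm_xB_apply ha]
    calc c * √(κ k) * (1 / (2 * max a w) * ‖P k f w‖)
        ≤ c * √(κ k) * (1 / (2 * max a w) * (8 * max a w ^ 2 * ps (κ k) (max a w) * ‖f‖)) := by
          gcongr
      _ = 2 * c * ‖f‖ * (√(κ k) / (max a w + rt (κ k) (max a w))) := by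
          unfold ps; field_simp; norm_num
      _ ≤ 2 * c * ‖f‖ * 1 := by gcongr; rw [div_le_one h5]; linarith
      _ = _ := mul_one _
  have nM : ∀ k f, ‖(LinearMap.mulLeft ℂ (m k) ∘ₗ L k) f‖ ≤ 2 / a * ‖f‖ := fun k f => by
    change ‖m k * L k f‖ ≤ _
    have h2 := (h k f).2.2.1
    calc _ ≤ ‖m k‖ * ‖L k f‖ := norm_mul_le _ _
      _ ≤ 2 / a * κ k * ‖L k f‖ := by gcongr; exact hmb k
      _ = 2 / a * (κ k * ‖L k f‖) := by ring
      _ ≤ _ := by gcongr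
  set G0 := blk L _ fun k f => (h k f).2.1 with hG0
  set G1 := blk _ _ n1 with hG1
  set G2 := blk _ _ n2 with hG2
  set G3 := blk _ _ n3 with hG3
  set G5 := blk _ _ n5 with hG5
  set M := blk _ _ nM with hM
  set G4 : WA →L[ℂ] WA := ContinuousLinearMap.id ℂ WA + M + G3 - ((c : ℂ) ^ 2)⁻¹ • G2 with hG4
  have e4 : ∀ f, G4 f = f + M f + G3 f - ((c : ℂ) ^ 2)⁻¹ • G2 f := fun _ => rfl
  have hc' : (c : ℂ) ≠ 0 := ofReal_ne_zero.2 hc.ne'
  have c2 : ∀ f, G2 (cj f) = cj (G2 f) := cj_blk _ _ _ fun k f => by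
    simp only [LinearMap.smul_apply, (hst k f).1, star_smul]
    congr 1; simp
  have c3 : ∀ f, G3 (cj f) = cj (G3 f) := cj_blk _ _ _ fun k f => (hst k f).2
  have cM : ∀ f, M (cj f) = cj (M f) := cj_blk _ _ _ fun k f => by
    change m k * L k (star f) = star (m (-k) * L (-k) f)
    rw [star_mul', ← hms, (hst k f).1]
  refine ⟨![G0, G1, G2, G3, G4, G5], M, fun f => ⟨fun k w _ => rfl, fun k w _ => ?_,
    fun k w hw => ?_, fun k w hw => (h k _).1.d0 w hw, fun k w hw => ?_⟩,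
    fun f k => (h k _).1.ini, fun f => ?_, norm_blk_le _ _ fun k f => (h k f).2.1,
    norm_blk_le _ _ n1, norm_blk_le _ _ n2, norm_blk_le _ _ n3, fun f => ?_, norm_blk_le _ _ n5,
    norm_blk_le _ _ nM, fun i f => ?_, cM⟩
  · change (k : ℂ) * I * (k * I) * L k (f.co k) w = k * I * (k * I * L k (f.co k) w)
    ring
  · change (k : ℂ) * I * (xB a w * P k (f.co k) w) = k * I * (P k (f.co k) w / (2 * w))
    rw [xB_of_le ha hw]; ring
  · refine ((h k _).1.d1 w hw).congr_deriv ?_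
    change _ = (f.co k w + m k w * L k (f.co k) w + P k (f.co k) w -
      ((c : ℂ) ^ 2)⁻¹ * ((k : ℂ) * I * (k * I) * L k (f.co k) w)) / (4 * w ^ 2)
    rw [hm, max_eq_right hw]
    congr 1
    have : ((κ k : ℝ) : ℂ) = k ^ 2 / c ^ 2 := by simp [hκ]
    push_cast
    rw [this]
    linear_combination ((c : ℂ) ^ 2)⁻¹ * k ^ 2 * L k (f.co k) w * I_mul_I
  · change G4 f - G3 f + ((c : ℂ) ^ 2)⁻¹ • G2 f = f + M f
    rw [e4]; abel
  · change ‖G4 f‖ ≤ _
    have b2 : ‖((c : ℂ) ^ 2)⁻¹ • G2 f‖ ≤ ‖f‖ := by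
      rw [norm_smul, norm_inv, norm_pow, norm_real, Real.norm_of_nonneg hc.le,
        inv_mul_le_iff₀ (by positivity)]
      exact norm_blk_le _ _ _ f
    have b3 : ‖G3 f‖ ≤ 2 * ‖f‖ := norm_blk_le _ _ _ f
    have bM : ‖M f‖ ≤ 2 * ‖f‖ := (norm_blk_le _ _ _ f).trans (by
      gcongr; exact div_le_self (by norm_num) ha)
    rw [e4]
    linarith [norm_sub_le (f + M f + G3 f) (((c : ℂ) ^ 2)⁻¹ • G2 f), norm_add_le (f + M f) (G3 f),
      norm_add_le f (M f)]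
  · fin_cases i
    · exact cj_blk _ _ (fun k f => (h k f).2.1) (fun k f => (hst k f).1) f
    · refine cj_blk _ _ n1 (fun k f => ?_) f
      simp only [LinearMap.smul_apply, (hst k f).1, star_smul]
      congr 1; simp
    · exact c2 f
    · exact c3 f
    · change G4 (cj f) = cj (G4 f)
      rw [e4, e4, c2, c3, cM]
      exact ext'' fun k w => by simp
    · refine cj_blk _ _ n5 (fun k f => ?_) f
      change ((k : ℂ) * I) • (xB a * P k (star f)) = star ((((-k : ℤ) : ℂ) * I) • (xB a * P (-k) f))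
      rw [star_smul, star_mul' (xB a), star_xB, (hst k f).2]
      congr 1; simp

end Vale.Agent.P218CN
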