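import Vale.Agent.P218CN.Box
import Vale.Agent.P218HB.Basic

/-! The conical ends of a holomorphic family of solutions. -/

noncomputable section

namespace Vale.Agent.P218CN
open Set Filter Topology Metric Vale.Agent.P218CO Vale.Agent.P218GA Vale.Agent.P218XI
open Vale.Agent.P218EN WA Vale.Agent.P218VA Vale.Agent.P218MP
open Vale.Agent.P218HB (Cst HB Lp HN)
open Vale.Agent.P218SQ (Pt ofReal)

lemma hnj_add (l : ℝ) (σ : ℂ) (j k : J2 ℂ) :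
    P218HB.nj l (j + σ • k) = P218HB.nj l j + σ • P218HB.nj l k := by
  simp only [P218HB.nj, Prod.ext_iff, Prod.fst_add, Prod.snd_add, Prod.smul_fst, Prod.smul_snd,
    smul_eq_mul]
  refine ⟨⟨trivial, ?_, trivial⟩, ?_, ?_, trivial⟩ <;> ring

/-- the jet on the scale `w` of a normalised jet -/
def jetN (p : ℝ × ℝ) : (Fin 6 → WA) →L[ℂ] J2 ℂ :=
  (((ContinuousLinearMap.id ℂ ℂ).prodMap (((p.1 : ℂ) • ContinuousLinearMap.id ℂ ℂ).prodMap
    (ContinuousLinearMap.id ℂ ℂ))).prodMap ((((p.1 : ℂ) ^ 2) • ContinuousLinearMap.id ℂ ℂ).prodMap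
    (((p.1 : ℂ) • ContinuousLinearMap.id ℂ ℂ).prodMap (ContinuousLinearMap.id ℂ ℂ)))).comp (jetL p)

lemma jetN_apply (p : ℝ × ℝ) (J : Fin 6 → WA) : jetN p J = P218HB.nj p.1 (jetL p J) := rfl

lemma norm_jetN_le (J : Fin 6 → WA) {p : ℝ × ℝ} (hp : 1 ≤ p.1) : ‖jetN p J‖ ≤ ‖J‖ := by
  have h0 : 0 < p.1 := one_pos.trans_le hp
  have h1 := norm_jw_le J p
  have h2 := norm_jww_le J p
  have h3 := norm_jwt_le J h0
  have h4 : p.1 ≤ 4 * p.1 ^ 2 := by nlinarith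
  simp only [jetN_apply, jetL_apply, P218HB.nj, Prod.norm_def, max_le_iff, norm_smul, norm_pow,
    Complex.norm_real, Real.norm_of_nonneg h0.le]
  exact ⟨⟨norm_ev_le' J 0 _ _, by nlinarith [norm_nonneg (jw J p)], norm_ev_le' J 1 _ _⟩,
    by nlinarith [norm_nonneg (jww J p), sq_nonneg p.1],
    by nlinarith [norm_nonneg (jwt J p)], norm_ev_le' J 2 _ _⟩

variable {V : Type*} [NormedAddCommGroup V] [NormedSpace ℂ V]

theorem ConeFam.lip4 {o : EndOp} {s δ C : ℝ} {RV : Set V} {jv : V → ℝ × ℝ → T3 ℂ}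
    {J : V → Fin 6 → WA} (h : ConeFam o s δ C RV jv J) (hC : 0 ≤ C) {v v' : V}
    (hv : v ∈ ball (0 : V) (δ / 4)) (hv' : v' ∈ ball (0 : V) (δ / 4)) :
    ‖J v' - J v‖ ≤ 4 * C * ‖v' - v‖ := by
  rw [mem_ball_zero_iff] at hv hv'
  have hδ := h.pos
  have hs : ball v (δ / 2) ⊆ ball 0 δ := ball_subset_ball' (by rw [dist_zero_right]; linarith)
  have := lip_le (h.holo.mono hs) (M := C * δ) (fun y hy => h.norm_le hC (hs hy)) (z := v')
    (by rw [mem_ball, dist_eq_norm]; linarith [norm_sub_le v' v])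
  refine this.trans (le_of_eq ?_)
  field_simp
  ring

variable {S : Set E3} {w : E3 → ℝ} {δ0 C0 : ℝ} {ι κ M : Type} [TopologicalSpace M]
  [ChartedSpace E2 M] (m : Model S w δ0 C0 ι κ M)

/-- the angular coordinate of the deformed conical end -/
def tOf (j : κ) (σ : ℝ) (J : Fin 6 → WA) (p : ℝ × ℝ) : ℂ := m.t j p + σ * j0 J p

/-- the two orientations -/
def Sgn (j : κ) (σ : ℝ) (o : EndOp) : Prop :=
  (σ = 1 ∧ o = coneOp m j) ∨ (σ = -1 ∧ o = (coneOp m j).flip)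

variable {m} {j : κ} {σ : ℝ} {o : EndOp} {J : Fin 6 → WA} {a : ℝ} {p : ℝ × ℝ}

lemma Sgn.norm (h : Sgn m j σ o) : ‖(σ : ℂ)‖ = 1 := by
  rcases h with ⟨rfl, -⟩ | ⟨rfl, -⟩ <;> simp

lemma Sgn.E (h : Sgn m j σ o) (p : ℝ × ℝ) (k : J2 ℂ) :
    o.E p k = σ * (coneOp m j).E p ((σ : ℂ) • k) := by
  rcases h with ⟨rfl, rfl⟩ | ⟨rfl, rfl⟩ <;> simp [EndOp.flip_E]

lemma tOf_per (J : Fin 6 → WA) (v θ : ℝ) :
    tOf m j σ J (v, θ + 2 * Real.pi) = tOf m j σ J (v, θ) := by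
  simp only [tOf, j0, m.t_periodic, ev_periodic]

lemma contDiffAt_tOf (ha : 1 ≤ a) (hJ : IsJet a J) (hp : a < p.1) (h0 : m.w0 < p.1) :
    ContDiffAt ℝ 2 (tOf m j σ J) p :=
  (contDiffAt_t m j h0).add (contDiffAt_const.mul (hJ.contDiffAt ha hp))

lemma pj_tOf (ha : 1 ≤ a) (hJ : IsJet a J) (hp : a < p.1) (h0 : m.w0 < p.1) :
    pj (tOf m j σ J) p = pj (fun q => (m.t j q : ℂ)) p + (σ : ℂ) • jetL p J := by
  rw [← hJ.pj_eq_jetL ha hp, ← cj_csmul _ (hJ.contDiffAt ha hp)]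
  exact cj_add (contDiffAt_t m j h0) (contDiffAt_const.mul (hJ.contDiffAt ha hp))

variable (m) in
/-- uniform bounds for the conical end of the model -/
theorem exists_t_bound (j : κ) : ∃ K : ℝ, ∀ ε : ℝ, 0 < ε → ∀ᶠ a in atTop, ∀ p : ℝ × ℝ, a ≤ p.1 →
    ‖P218HB.nj p.1 (pj (fun q => (m.t j q : ℂ)) p)‖ ≤ ε ∧
      p.1 ^ 2 * ‖(pj (fun q => (m.t j q : ℂ)) p).1.2.1‖ ≤ K := by
  obtain ⟨β, β', K, -, h⟩ := exists_sj m j
  refine ⟨K, fun ε hε => ?_⟩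
  filter_upwards [h ε hε, eventually_ge_atTop 1] with a ⟨s, H, n0, n1, n2, n3, n4, n5, nZ⟩ ha p hp
  have h0 : 0 < p.1 := by linarith
  have e : ∀ i, (s i).ev p.1 p.2 = nj p.1 (pj (fun q => (m.t j q : ℂ)) p) i := fun i => by
    rw [H.ev, max_eq_right hp]
  have b : ∀ i {B}, ‖s i‖ ≤ B → ‖nj p.1 (pj (fun q => (m.t j q : ℂ)) p) i‖ ≤ B := fun i B hB =>
    e i ▸ (norm_ev_le _ _ _).trans hB
  have bZ := (norm_ev_le _ p.1 p.2).trans nZ
  rw [ev_mul, ev_sc, xB_of_le ha hp, e] at bZ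
  have b0 := b 0 n0
  have b1 := b 1 n1
  have b2 := b 2 n2
  have b3 := b 3 n3
  have b4 := b 4 n4
  have b5 := b 5 n5
  simp only [nj, Matrix.cons_val, x_mul h0.ne', norm_mul, norm_pow, Complex.norm_real,
    Real.norm_of_nonneg h0.le, Complex.norm_ofNat] at b0 b1 b2 b3 b4 b5 bZ
  simp only [P218HB.nj, Prod.norm_def, max_le_iff, norm_smul, norm_pow,
    Complex.norm_real, Real.norm_of_nonneg h0.le]
  have k : ∀ x y : ℝ, 0 ≤ x → 0 ≤ y → 0 ≤ x * y := fun _ _ => mul_nonneg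
  refine ⟨⟨⟨b0, ?_, b1⟩, ?_, ?_, b2⟩, ?_⟩
  · linarith [k _ _ h0.le (norm_nonneg (pj (fun q => (m.t j q : ℂ)) p).1.2.1)]
  · linarith [k _ _ (sq_nonneg p.1) (norm_nonneg (pj (fun q => (m.t j q : ℂ)) p).2.1)]
  · linarith [k _ _ h0.le (norm_nonneg (pj (fun q => (m.t j q : ℂ)) p).2.2.1)]
  · linarith [k _ _ (sq_nonneg p.1) (norm_nonneg (pj (fun q => (m.t j q : ℂ)) p).1.2.1)]

lemma one_add_sq_ne_of_lt {t : ℂ} (h : ‖t‖ < 1) : 1 + t ^ 2 ≠ 0 := fun h0 => by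
  have h1 : ‖t‖ ^ 2 = 1 := by rw [← norm_pow, eq_neg_of_add_eq_zero_right h0, norm_neg, norm_one]
  nlinarith [norm_nonneg t]

/-- the equation for the deformed end -/
theorem Sgn.ppf (h : Sgn m j σ o) (ha : 1 ≤ a) (hJ : IsJet a J) (hp : a < p.1) (h0 : m.w0 < p.1)
    (ht : ‖tOf m j σ J p‖ < 1) (he : o.E p (pj (j0 J) p) = 0) :
    PPF (1, 0) (0, 1) (fun q : ℝ × ℝ => (coneF (m.L j)).X q.1 q.2 (tOf m j σ J q)) p = 0 := by
  have hσ : (σ : ℂ) ≠ 0 := norm_ne_zero_iff.1 (by rw [h.norm]; exact one_ne_zero)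
  rw [h.E, mul_eq_zero, or_iff_right hσ, coneOp, cOp_E, hJ.pj_eq_jetL ha hp,
    ← pj_tOf ha hJ hp h0] at he
  rw [PPF_Ej _ (contDiffAt_tOf ha hJ hp h0) (by linarith) (one_add_sq_ne_of_lt ht), coneF_c, he]
  simp

variable {τ : Type} [Fintype ι] [Fintype τ]

variable (m) in
/-- the properties of a conical end in a holomorphic family -/
structure ConeHub (j : κ) (c : Cst) (s K : ℝ) (t : (ι → ℝ) → Pt ι τ → ℝ × ℝ → ℂ)
    (tb : Pt ι τ → ℝ × ℝ → ℂ) : Prop where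
  cone_eq : ∀ W z, c.Ok W z → ∀ p : ℝ × ℝ, s < p.1 →
    PPF (1, 0) (0, 1) (fun q : ℝ × ℝ => (coneF (m.L j)).X q.1 q.2 (t W z q)) p = 0
  t_per : ∀ W z v θ, t W z (v, θ + 2 * Real.pi) = t W z (v, θ)
  t_hn : HN c s t tb
  t_zero : ∀ p : ℝ × ℝ, s < p.1 → tb 0 p = m.t j p
  t_supp : ∀ W z, c.Ok W z → ∀ p : ℝ × ℝ, s < p.1 → p.1 ^ 2 * ‖dw (t W z) p‖ ≤ K
  t_real : ∀ W x, c.Ok W (ofReal x) → ∀ p : ℝ × ℝ, s < p.1 → (t W (ofReal x) p).im = 0

variable (m) in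
theorem exists_coneHub (j : κ) : ∃ K : ℝ, ∀ᶠ s in atTop, ∀ (V : Type) [NormedAddCommGroup V]
    [NormedSpace ℂ V] (σ δ C : ℝ) (o : EndOp) (RV : Set V) (jv : V → ℝ × ℝ → T3 ℂ)
    (J : V → Fin 6 → WA), Sgn m j σ o → ConeFam o s δ C RV jv J → 0 ≤ C → C * δ ≤ 1 / 4 →
    ∀ (τ : Type) [Fintype τ] (c : Cst) (v : (ι → ℝ) → Pt ι τ → V) (vb : Pt ι τ → V),
    HB c (univ : Set Unit) (fun W z _ => v W z) (fun z _ => vb z) →
    Lp c (univ : Set Unit) (fun W z _ => v W z) → (∀ W z, c.Ok W z → v W z ∈ ball 0 (δ / 4)) →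
    (∀ z ∈ ball (0 : Pt ι τ) c.r, vb z ∈ ball 0 (δ / 4)) → vb 0 = 0 →
    (∀ W x, c.Ok W (ofReal x) → v W (ofReal x) ∈ RV) →
    ConeHub m j c (s + 6) K (fun W z => tOf m j σ (J (v W z))) fun z => tOf m j σ (J (vb z)) := by
  obtain ⟨K, hK⟩ := exists_t_bound m j
  refine ⟨K + 1, ?_⟩
  filter_upwards [hK (1 / 4) (by norm_num), eventually_gt_atTop m.w0] with s hs hs0 V _ _ σ δ C o
    RV jv J hσ h hC hCδ τ _ c v vb hb hl hv hvb h0 hr
  have hδ := h.pos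
  have sub : ball (0 : V) (δ / 4) ⊆ ball 0 δ := ball_subset_ball (by linarith)
  have nJ : ∀ u ∈ ball (0 : V) (δ / 4), ‖J u‖ ≤ 1 / 4 := fun u hu =>
    (h.norm_le hC (sub hu)).trans hCδ
  have e : ∀ u ∈ ball (0 : V) (δ / 4), ∀ p : ℝ × ℝ, s + 6 < p.1 →
      P218HB.nj p.1 (P218CO.cj (1, 0) (0, 1) (tOf m j σ (J u)) p) =
        P218HB.nj p.1 (pj (fun q => (m.t j q : ℂ)) p) + (σ : ℂ) • jetN p (J u) := fun u hu p hp =>
    (congrArg _ (pj_tOf h.one_le (h.jet u (sub hu)) (by linarith) (by linarith))).trans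
      (hnj_add ..)
  have d : ∀ u ∈ ball (0 : V) (δ / 4), ∀ u' ∈ ball (0 : V) (δ / 4), ∀ p : ℝ × ℝ, s + 6 < p.1 →
      ‖P218HB.nj p.1 (P218CO.cj (1, 0) (0, 1) (tOf m j σ (J u')) p) -
        P218HB.nj p.1 (P218CO.cj (1, 0) (0, 1) (tOf m j σ (J u)) p)‖ ≤ 4 * C * ‖u' - u‖ := by
    intro u hu u' hu' p hp
    rw [e u hu p hp, e u' hu' p hp, add_sub_add_left_eq_sub, ← smul_sub, ← map_sub, norm_smul,
      hσ.norm, one_mul]
    exact (norm_jetN_le _ (by linarith [h.one_le])).trans (h.lip4 hC hu hu')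
  have hol : ∀ {U : Set (Pt ι τ)} {g : Pt ι τ → V}, DifferentiableOn ℂ g U →
      (∀ z ∈ U, g z ∈ ball (0 : V) (δ / 4)) → ∀ p : ℝ × ℝ, s + 6 < p.1 → DifferentiableOn ℂ
        (fun z => P218HB.nj p.1 (P218CO.cj (1, 0) (0, 1) (tOf m j σ (J (g z))) p)) U :=
    fun hg hm p hp => ((((jetN p).differentiable.comp_differentiableOn
      (h.holo.comp hg fun z hz => sub (hm z hz))).const_smul (σ : ℂ)).const_add _).congr
        fun z hz => e _ (hm z hz) p hp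
  have cd : ∀ u ∈ ball (0 : V) (δ / 4), ∀ p : ℝ × ℝ, s + 6 < p.1 →
      ContDiffAt ℝ 2 (tOf m j σ (J u)) p := fun u hu p hp =>
    contDiffAt_tOf h.one_le (h.jet u (sub hu)) (by linarith) (by linarith)
  have bd : ∀ u ∈ ball (0 : V) (δ / 4), ∀ p : ℝ × ℝ, s + 6 < p.1 →
      ‖P218HB.nj p.1 (P218CO.cj (1, 0) (0, 1) (tOf m j σ (J u)) p)‖ ≤ 1 / 2 := fun u hu p hp => by
    rw [e u hu p hp]
    refine (norm_add_le _ _).trans ?_
    rw [norm_smul, hσ.norm, one_mul]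
    linarith [(hs p (by linarith)).1, norm_jetN_le (J u) (p := p) (by linarith [h.one_le]), nJ u hu]
  refine ⟨fun W z hz p hp => ?_, fun W z => tOf_per _, ⟨fun W z hz => cd _ (hv W z hz),
    fun z hz => cd _ (hvb z hz), ⟨fun W hW p hp => hol (hb.holo W hW () trivial)
      (fun z hz => hv W z ⟨hW, hz⟩) p hp, fun p hp => hol (hb.holob () trivial) hvb p hp,
      ⟨1 / 2, fun z hz p hp => bd _ (hvb z hz) p hp⟩, ?_⟩, fun W hW => ?_⟩,
    fun p _ => by simp [tOf, h0, h.zero0], fun W z hz p hp => ?_, fun W x hx p _ => ?_⟩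
  · have hu := hv W z hz
    refine hσ.ppf h.one_le (h.jet _ (sub hu)) (by linarith) (by linarith) ?_ ?_
    · exact ((norm_fst_le _).trans ((norm_fst_le _).trans (bd _ hu p hp))).trans_lt (by norm_num)
    · rw [← o.END_hi hp.le (jv (v W z) p)]
      exact (h.sol _ (sub hu)).eq p (show s < p.1 by linarith)
  · obtain ⟨A, hA⟩ := hb.close
    refine ⟨4 * C * A, fun W z hz p hp => ?_⟩
    have hz' : z ∈ ball (0 : Pt ι τ) c.r := hz.mem_ball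
    refine (d _ (hvb z hz') _ (hv W z hz) p hp).trans ?_
    rw [mul_assoc (4 * C)]
    exact mul_le_mul_of_nonneg_left (hA W z hz () trivial) (by positivity)
  · obtain ⟨L, hL⟩ := hl W hW
    refine ⟨4 * C * L, hL.mono fun W' h' z hz hz' p hp => ?_⟩
    refine (norm_fst_le (_ - _ : J2 ℂ)).trans ((d _ (hv W z hz) _ (hv W' z hz') p hp).trans ?_)
    rw [mul_assoc (4 * C)]
    exact mul_le_mul_of_nonneg_left (h' z hz hz' () trivial) (by positivity)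
  · have hu := hv W z hz
    have h1 := congrArg (fun k : J2 ℂ => k.1.2.1)
      (pj_tOf (m := m) (j := j) (σ := σ) h.one_le (h.jet _ (sub hu)) (p := p) (by linarith)
        (by linarith))
    have h2 := norm_jw_le (J (v W z)) p
    change dw (tOf m j σ (J (v W z))) p = _ + (σ : ℂ) • (jetL p _).1.2.1 at h1
    rw [h1, jetL_apply]
    refine (mul_le_mul_of_nonneg_left (norm_add_le _ _) (sq_nonneg _)).trans ?_
    rw [norm_smul, hσ.norm, one_mul, mul_add]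
    have h3 := mul_nonneg (sq_nonneg p.1) (norm_nonneg (jw (J (v W z)) p))
    linarith [(hs p (by linarith)).2, nJ _ hu]
  · simp [tOf, h.real0 (sub (hv W _ hx)) (hr W x hx) p]

end Vale.Agent.P218CN
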