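import Vale.Agent.P218EN.Ode

/-! The Green operator of one Fourier mode on a conical end (half line, bounded solutions). -/

namespace Vale.Agent.P218CN
open Filter Topology Set Complex MeasureTheory Vale.Agent.P218EN

/-- `√(w ^ 2 + κ)` -/
noncomputable def rt (κ w : ℝ) : ℝ := √(w ^ 2 + κ)
/-- the positive characteristic root -/
noncomputable def mp (κ w : ℝ) : ℝ := (w + rt κ w) / (2 * w)
/-- the supersolution for the fast component -/
noncomputable def ps (κ w : ℝ) : ℝ := 1 / (2 * w * (w + rt κ w))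

section
variable {a κ w : ℝ}

theorem rt_sq (hκ : 0 ≤ κ) (w : ℝ) : rt κ w ^ 2 = w ^ 2 + κ := Real.sq_sqrt (by positivity)

theorem le_rt (hκ : 0 ≤ κ) (w : ℝ) : w ≤ rt κ w := Real.le_sqrt_of_sq_le (by linarith)

theorem sqrt_le_rt (w : ℝ) : √κ ≤ rt κ w := Real.sqrt_le_sqrt (by nlinarith [sq_nonneg w])

theorem rt_le (hκ : 0 ≤ κ) (hw : 0 ≤ w) : rt κ w ≤ w + √κ := by
  have h1 := Real.sq_sqrt hκ
  have h2 := Real.sqrt_nonneg κ
  exact Real.sqrt_le_iff.2 ⟨by positivity, by nlinarith⟩

theorem continuous_rt (κ : ℝ) : Continuous (rt κ) := by unfold rt; fun_prop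

theorem one_le_mp (hκ : 0 ≤ κ) (hw : 0 < w) : 1 ≤ mp κ w := by
  unfold mp
  rw [le_div_iff₀ (by positivity)]
  linarith [le_rt hκ w]

theorem ps_pos (hκ : 0 ≤ κ) (hw : 0 < w) : 0 < ps κ w := by
  have := le_rt hκ w
  unfold ps
  have : 0 < w + rt κ w := by linarith
  positivity

theorem mp_ps (hκ : 0 ≤ κ) (hw : 0 < w) : mp κ w * ps κ w = 1 / (4 * w ^ 2) := by
  have := le_rt hκ w
  have : 0 < w + rt κ w := by linarith
  unfold mp ps
  field_simp
  norm_num

theorem mm_eq (hκ : 0 ≤ κ) (hw : 0 < w) : 1 - mp κ w = -(κ * ps κ w) := by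
  have h1 := le_rt hκ w
  have h2 : 0 < w + rt κ w := by linarith
  have h3 := rt_sq hκ w
  unfold mp ps
  field_simp
  linear_combination (-1 : ℝ) * h3

theorem ps_le (hκ : 0 ≤ κ) (hw : 0 < w) : ps κ w ≤ 1 / (4 * w ^ 2) := by
  rw [← mp_ps hκ hw]
  exact le_mul_of_one_le_left (ps_pos hκ hw).le (one_le_mp hκ hw)

theorem ps_anti (hκ : 0 ≤ κ) (hw : 0 < w) {s : ℝ} (hs : w ≤ s) : ps κ s ≤ ps κ w := by
  have h1 := le_rt hκ w
  have h2 : 0 < w + rt κ w := by linarith
  have h3 : rt κ w ≤ rt κ s := Real.sqrt_le_sqrt (by nlinarith)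
  have h4 : 0 < s := hw.trans_le hs
  unfold ps
  gcongr

theorem hasDerivAt_mp (hκ : 0 ≤ κ) (hw : 0 < w) :
    HasDerivAt (mp κ) (-(2 * κ / rt κ w / (4 * w ^ 2))) w := by
  have h1 := le_rt hκ w
  have h0 : 0 < rt κ w := by linarith
  have h3 := rt_sq hκ w
  have h2 : HasDerivAt (rt κ) (2 * w / (2 * rt κ w)) w := by
    have := ((hasDerivAt_pow 2 w).add_const κ).sqrt (by positivity)
    refine HasDerivAt.congr_deriv this ?_
    simp [rt]
  have h4 := ((hasDerivAt_id w).add h2).div ((hasDerivAt_id w).const_mul 2) (by simp; linarith)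
  refine h4.congr_deriv ?_
  simp only [id, Pi.add_apply]
  field_simp
  linear_combination (-4 : ℝ) * h3

theorem continuous_mp (ha : 0 < a) (κ : ℝ) : Continuous fun s => mp κ (max a s) := by
  unfold mp
  refine Continuous.div (by have := continuous_rt κ; fun_prop) (by fun_prop) fun s => ?_
  have := le_max_left a s
  positivity

end

/-- the bounded solution of `y' = μ y + g` -/
theorem exists_bwd {a : ℝ} {μ ψ : ℝ → ℝ} {g : ℝ → ℂ} (hμ : Continuous μ) (hg : Continuous g)
    (h1 : ∀ s, a ≤ s → 1 ≤ μ s) (hb : ∀ w s, a ≤ w → w ≤ s → ‖g s‖ ≤ μ s * ψ w) :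
    ∃ y : ℝ → ℂ, (∀ w, HasDerivAt y (μ w * y w + g w) w) ∧ ∀ w, a ≤ w → ‖y w‖ ≤ ψ w := by
  set M : ℝ → ℝ := fun u => ∫ s in a..u, μ s with hM
  have hMd : ∀ u, HasDerivAt M (μ u) u := fun u =>
    intervalIntegral.integral_hasDerivAt_right (hμ.intervalIntegrable _ _)
      (hμ.stronglyMeasurableAtFilter _ _) hμ.continuousAt
  have hMc : Continuous M := continuous_iff_continuousAt.2 fun u => (hMd u).continuousAt
  have hMt : Tendsto M atTop atTop := by
    refine tendsto_atTop_mono' atTop ?_ (tendsto_atTop_add_const_right atTop (-a) tendsto_id)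
    filter_upwards [eventually_ge_atTop a] with u hu
    have := intervalIntegral.integral_mono_on hu (intervalIntegrable_const (c := (1 : ℝ)))
      (hμ.intervalIntegrable (μ := volume) a u) fun s hs => h1 s hs.1
    simpa [sub_eq_add_neg] using this
  have hE : ∀ u, HasDerivAt (fun u => -Real.exp (-M u)) (μ u * Real.exp (-M u)) u := fun u => by
    refine ((hMd u).neg.exp.neg).congr_deriv ?_
    simp only [Pi.neg_apply]; ring
  have hEt : Tendsto (fun u => -Real.exp (-M u)) atTop (𝓝 0) := by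
    simpa using (Real.tendsto_exp_neg_atTop_nhds_zero.comp hMt).neg
  have hpos : ∀ w, a ≤ w → ∀ u ∈ Ioi w, 0 ≤ μ u * Real.exp (-M u) := fun w hw u hu =>
    mul_nonneg (zero_le_one.trans (h1 u (hw.trans (le_of_lt hu)))) (Real.exp_pos _).le
  set G : ℝ → ℂ := fun s => (Real.exp (-M s) : ℝ) * g s with hG
  have hGc : Continuous G := by simp only [hG]; fun_prop
  have hGb : ∀ w, a ≤ w → ∀ᵐ s ∂(volume.restrict (Ioi w)),
      ‖G s‖ ≤ ψ w * (μ s * Real.exp (-M s)) := fun w hw => by
    refine (ae_restrict_iff' measurableSet_Ioi).2 (Eventually.of_forall fun s hs => ?_)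
    rw [hG, norm_mul, norm_real, Real.norm_of_nonneg (Real.exp_pos _).le]
    have := mul_le_mul_of_nonneg_left (hb w s hw (le_of_lt hs)) (Real.exp_pos (-M s)).le
    linarith
  have hI : ∀ w, a ≤ w → IntegrableOn (fun s => ψ w * (μ s * Real.exp (-M s))) (Ioi w) :=
    fun w hw => (integrableOn_Ioi_deriv_of_nonneg' (fun u _ => hE u) (hpos w hw) hEt).const_mul _
  have hGi : ∀ w, a ≤ w → IntegrableOn G (Ioi w) := fun w hw =>
    (hI w hw).mono' hGc.aestronglyMeasurable (hGb w hw)
  refine ⟨fun w => (Real.exp (M w) : ℝ) * ((∫ s in a..w, G s) - ∫ s in Ioi a, G s), fun w => ?_,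
    fun w hw => ?_⟩
  · have := ((hMd w).exp.ofReal_comp).mul ((hasDerivAt_prim hGc a w).sub_const (∫ s in Ioi a, G s))
    refine this.congr_deriv ?_
    simp only [hG]
    have e : ((Real.exp (M w) : ℝ) : ℂ) * (Real.exp (-M w) : ℝ) = 1 := by
      rw [← ofReal_mul, ← Real.exp_add]; simp
    push_cast at e ⊢
    linear_combination g w * e
  · beta_reduce
    rw [← intervalIntegral.integral_interval_add_Ioi (hGi a le_rfl) (hGi w hw), sub_add_cancel_left,
      norm_mul, norm_neg, norm_real, Real.norm_of_nonneg (Real.exp_pos _).le]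
    have h2 := norm_integral_le_of_norm_le (hI w hw) (hGb w hw)
    rw [integral_const_mul,
      integral_Ioi_of_hasDerivAt_of_nonneg' (fun u _ => hE u) (hpos w hw) hEt] at h2
    refine (mul_le_mul_of_nonneg_left h2 (Real.exp_pos _).le).trans (le_of_eq ?_)
    rw [Real.exp_neg]
    field_simp
    ring

/-- the solution of `η' = μ η + g` with `η a = 0` -/
theorem exists_fwd (a : ℝ) {μ g : ℝ → ℂ} (hμ : Continuous μ) (hg : Continuous g) :
    ∃ η : ℝ → ℂ, (∀ w, HasDerivAt η (μ w * η w + g w) w) ∧ η a = 0 := by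
  set M : ℝ → ℂ := fun u => ∫ s in a..u, μ s with hM
  have hMd : ∀ u, HasDerivAt M (μ u) u := fun u => hasDerivAt_prim hμ a u
  have hMc : Continuous M := continuous_iff_continuousAt.2 fun u => (hMd u).continuousAt
  have hGc : Continuous fun s => exp (-M s) * g s := by fun_prop
  refine ⟨fun w => exp (M w) * ∫ s in a..w, exp (-M s) * g s, fun w => ?_, by simp⟩
  refine ((hMd w).cexp.mul (hasDerivAt_prim hGc a w)).congr_deriv ?_
  have e : exp (M w) * exp (-M w) = 1 := by rw [← exp_add]; simp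
  linear_combination g w * e

/-- `η` with `η' = p / (4 w ^ 2)` solves the model equation with source `f` on `[a, ∞)` and
vanishes at `a` -/
structure Sol (a κ : ℝ) (f η p : CB) : Prop where
  cl0 : ∀ w, η w = η (max a w)
  cl1 : ∀ w, p w = p (max a w)
  d0 : ∀ w, a ≤ w → HasDerivWithinAt η (p w / (4 * w ^ 2)) (Ici a) w
  d1 : ∀ w, a ≤ w → HasDerivWithinAt (fun s : ℝ => p s / (4 * s ^ 2))
    ((p w + (κ + 2 * κ / rt κ w : ℝ) * η w + f w) / (4 * w ^ 2)) (Ici a) w
  ini : η a = 0

theorem exists_sol {a κ : ℝ} (ha : 0 < a) (hκ : 0 ≤ κ) (f : CB) : ∃ η p : CB, Sol a κ f η p ∧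
    ∀ w, a ≤ w → ‖η w‖ ≤ ‖f‖ / (4 * a) ∧ κ * ‖η w‖ ≤ ‖f‖ ∧
      ‖p w‖ ≤ 8 * w ^ 2 * ps κ w * ‖f‖ := by
  have hpos : ∀ s, 0 < max a s := fun s => ha.trans_le (le_max_left a s)
  have hf0 := norm_nonneg f
  have hμ := continuous_mp ha κ
  have hg : Continuous fun s => f s / (4 * ((max a s : ℝ) : ℂ) ^ 2) := by
    refine Continuous.div (by fun_prop) (by fun_prop) fun s => ?_
    exact mul_ne_zero (by norm_num) (pow_ne_zero 2 (ofReal_ne_zero.2 (hpos s).ne'))
  obtain ⟨y, hy, hyb⟩ := exists_bwd (a := a) (ψ := fun w => ps κ w * ‖f‖) hμ hg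
    (fun s _ => one_le_mp hκ (hpos s)) fun w s hw hs => by
      have hs' : a ≤ s := hw.trans hs
      have h0 : 0 < s := ha.trans_le hs'
      rw [max_eq_right hs', norm_div, norm_mul, norm_pow, norm_real, Real.norm_of_nonneg h0.le,
        norm_ofNat, div_eq_mul_one_div, ← mp_ps hκ h0]
      have h1 := f.norm_coe_le_norm s
      have h2 := ps_anti hκ (ha.trans_le hw) hs
      have h3 := ps_pos hκ h0
      have h4 := one_le_mp hκ h0
      calc ‖f s‖ * (mp κ s * ps κ s) ≤ ‖f‖ * (mp κ s * ps κ w) := by gcongr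
        _ = _ := by ring
  have hyc : Continuous y := continuous_iff_continuousAt.2 fun u => (hy u).continuousAt
  have hμc : Continuous fun s => ((1 - mp κ (max a s) : ℝ) : ℂ) := by fun_prop
  obtain ⟨η, hη, hη0⟩ := exists_fwd a hμc hyc
  have hηc : Continuous η := continuous_iff_continuousAt.2 fun u => (hη u).continuousAt
  have b1 : ∀ w, a ≤ w → ‖η w‖ ≤ ‖f‖ / (4 * a) := by
    intro w hw
    have := sup_fwd (a := a) (b := w) (y := η) (μ := fun s => ((1 - mp κ (max a s) : ℝ) : ℂ))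
      (f := y) (ψ := fun s => ‖f‖ / (4 * a) - ‖f‖ / 4 * s⁻¹) (ψ' := fun s => ‖f‖ / (4 * s ^ 2))
      hμc.continuousOn (fun s _ => (hη s).hasDerivWithinAt)
      (fun s hs => by
        have h0 : s ≠ 0 := (ha.trans_le hs.1).ne'
        refine ((((hasDerivAt_inv h0).const_mul (‖f‖ / 4)).const_sub _).congr_deriv
          ?_).hasDerivWithinAt
        field_simp)
      (fun s hs => by
        have h0 : 0 < s := ha.trans_le hs.1
        have h1 := one_le_mp hκ (hpos s)
        have h2 : 0 ≤ ‖f‖ / (4 * a) - ‖f‖ / 4 * s⁻¹ := by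
          have : ‖f‖ / (4 * s) ≤ ‖f‖ / (4 * a) := by gcongr; exact hs.1
          have e : ‖f‖ / 4 * s⁻¹ = ‖f‖ / (4 * s) := by field_simp
          linarith
        have h3 := hyb s hs.1
        have h4 := mul_le_mul_of_nonneg_right (ps_le hκ h0) hf0
        have e : 1 / (4 * s ^ 2) * ‖f‖ = ‖f‖ / (4 * s ^ 2) := by ring
        rw [ofReal_re]
        nlinarith)
      (by rw [hη0, norm_zero]; apply le_of_eq; field_simp; ring) w ⟨hw, le_rfl⟩
    have h5 : 0 ≤ ‖f‖ / 4 * w⁻¹ := by have := ha.trans_le hw; positivity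
    linarith
  have b2 : ∀ w, a ≤ w → κ * ‖η w‖ ≤ ‖f‖ := by
    intro w hw
    have := sup_fwd (a := a) (b := w) (y := fun s => κ * η s)
      (μ := fun s => ((1 - mp κ (max a s) : ℝ) : ℂ)) (f := fun s => κ * y s) (ψ := fun _ => ‖f‖)
      (ψ' := fun _ => 0) hμc.continuousOn
      (fun s _ => (((hη s).const_mul (κ : ℂ)).congr_deriv (by ring)).hasDerivWithinAt)
      (fun s _ => hasDerivWithinAt_const _ _ _)
      (fun s hs => by
        have h0 : 0 < s := ha.trans_le hs.1
        rw [ofReal_re, max_eq_right hs.1, mm_eq hκ h0, norm_mul, norm_real, Real.norm_of_nonneg hκ]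
        have := mul_le_mul_of_nonneg_left (hyb s hs.1) hκ
        linarith)
      (by simp [hη0]) w ⟨hw, le_rfl⟩
    rwa [norm_mul, norm_real, Real.norm_of_nonneg hκ] at this
  set p : ℝ → ℂ := fun s => 4 * (s : ℂ) ^ 2 * (((1 - mp κ (max a s) : ℝ) : ℂ) * η s + y s) with hp
  have hpc : Continuous p := by simp only [hp]; fun_prop
  have b3 : ∀ w, a ≤ w → ‖p w‖ ≤ 8 * w ^ 2 * ps κ w * ‖f‖ := by
    intro w hw
    have h0 : 0 < w := ha.trans_le hw
    have h1 := ps_pos hκ h0
    have h2 : ‖((1 - mp κ (max a w) : ℝ) : ℂ) * η w‖ ≤ ps κ w * ‖f‖ := by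
      rw [max_eq_right hw, mm_eq hκ h0, norm_mul, norm_real, norm_neg,
        Real.norm_of_nonneg (by positivity)]
      have := mul_le_mul_of_nonneg_left (b2 w hw) h1.le
      linarith
    have h3 := (norm_add_le _ _).trans (add_le_add h2 (hyb w hw))
    simp only [hp]
    rw [norm_mul, norm_mul, norm_pow, norm_real, Real.norm_of_nonneg h0.le, norm_ofNat]
    have := mul_le_mul_of_nonneg_left h3 (show 0 ≤ 4 * w ^ 2 by positivity)
    linarith
  have b4 : ∀ w, ‖p (max a w)‖ ≤ 2 * ‖f‖ := fun w => by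
    refine (b3 _ (le_max_left a w)).trans ?_
    have h1 := ps_le hκ (hpos w)
    have h2 := hpos w
    gcongr
    calc 8 * max a w ^ 2 * ps κ (max a w) ≤ 8 * max a w ^ 2 * (1 / (4 * max a w ^ 2)) := by gcongr
      _ = 2 := by field_simp; norm_num
  let η' : CB := BoundedContinuousFunction.ofNormedAddCommGroup (fun w => η (max a w))
    (by fun_prop) _ fun w => b1 _ (le_max_left a w)
  let p' : CB := BoundedContinuousFunction.ofNormedAddCommGroup (fun w => p (max a w))
    (by fun_prop) _ b4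
  have e0 : ∀ w, η' w = η (max a w) := fun _ => rfl
  have e1 : ∀ w, p' w = p (max a w) := fun _ => rfl
  have e2 : ∀ w, a ≤ w → η' w = η w := fun w hw => by rw [e0, max_eq_right hw]
  have e3 : ∀ w, a ≤ w → p' w = p w := fun w hw => by rw [e1, max_eq_right hw]
  have e4 : ∀ w, a ≤ w → p' w / (4 * w ^ 2) = ((1 - mp κ w : ℝ) : ℂ) * η w + y w := fun w hw => by
    have h0 : (w : ℂ) ≠ 0 := ofReal_ne_zero.2 (ha.trans_le hw).ne'
    rw [e3 w hw]
    simp only [hp, max_eq_right hw]
    field_simp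
  refine ⟨η', p', ⟨fun w => by rw [e0, e0, max_eq_right (le_max_left a w)],
    fun w => by rw [e1, e1, max_eq_right (le_max_left a w)], fun w hw => ?_, fun w hw => ?_,
    by rw [e2 a le_rfl, hη0]⟩, fun w hw => ?_⟩
  · have := (hη w).hasDerivWithinAt (s := Ici a)
    rw [max_eq_right hw, ← e4 w hw] at this
    exact this.congr e2 (e2 w hw)
  · have h0 : 0 < w := ha.trans_le hw
    have h1 := ((((hasDerivAt_mp hκ h0).const_sub 1).ofReal_comp.mul (hη w)).add
      (hy w)).hasDerivWithinAt (s := Ici a)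
    refine (h1.congr e4 (e4 w hw)).congr_deriv ?_
    rw [add_div, add_div, e4 w hw, e2 w hw, max_eq_right hw]
    have h2 : ((1 - mp κ w : ℝ) : ℂ) * (mp κ w : ℝ) = -((κ : ℂ) / (4 * w ^ 2)) := by
      have : (1 - mp κ w) * mp κ w = -(κ / (4 * w ^ 2)) := by
        rw [mm_eq hκ h0, div_eq_mul_one_div κ, ← mp_ps hκ h0]; ring
      exact_mod_cast this
    push_cast at h2 ⊢
    linear_combination (-η w) * h2
  · rw [e2 w hw, e3 w hw]
    exact ⟨b1 w hw, b2 w hw, b3 w hw⟩

namespace Sol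
variable {a κ : ℝ} {f η p f' η' p' : CB}

theorem add (h : Sol a κ f η p) (h' : Sol a κ f' η' p') : Sol a κ (f + f') (η + η') (p + p') where
  cl0 w := by simp only [BoundedContinuousFunction.add_apply]; rw [← h.cl0, ← h'.cl0]
  cl1 w := by simp only [BoundedContinuousFunction.add_apply]; rw [← h.cl1, ← h'.cl1]
  d0 w hw := by
    refine ((h.d0 w hw).add (h'.d0 w hw)).congr_deriv ?_
    simp only [BoundedContinuousFunction.add_apply, add_div]
  d1 w hw := by
    refine (((h.d1 w hw).add (h'.d1 w hw)).congr (fun s _ => ?_) ?_).congr_deriv ?_ <;>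
      simp only [BoundedContinuousFunction.add_apply, Pi.add_apply] <;> ring
  ini := by simp [h.ini, h'.ini]

theorem smul (h : Sol a κ f η p) (c : ℂ) : Sol a κ (c • f) (c • η) (c • p) where
  cl0 w := by simp only [BoundedContinuousFunction.smul_apply]; rw [← h.cl0]
  cl1 w := by simp only [BoundedContinuousFunction.smul_apply]; rw [← h.cl1]
  d0 w hw := by
    refine (((h.d0 w hw).const_mul c).congr (fun s _ => ?_) ?_).congr_deriv ?_ <;>
      simp only [BoundedContinuousFunction.smul_apply, smul_eq_mul]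
    ring
  d1 w hw := by
    refine (((h.d1 w hw).const_mul c).congr (fun s _ => ?_) ?_).congr_deriv ?_ <;>
      simp only [BoundedContinuousFunction.smul_apply, smul_eq_mul] <;> ring
  ini := by simp [h.ini]

theorem star (h : Sol a κ f η p) : Sol a κ (star f) (star η) (star p) where
  cl0 w := by simp only [BoundedContinuousFunction.star_apply]; rw [← h.cl0]
  cl1 w := by simp only [BoundedContinuousFunction.star_apply]; rw [← h.cl1]
  d0 w hw := by
    refine ((h.d0 w hw).star.congr (fun s _ => ?_) ?_).congr_deriv ?_ <;>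
      simp [BoundedContinuousFunction.star_apply]
  d1 w hw := by
    refine ((h.d1 w hw).star.congr (fun s _ => ?_) ?_).congr_deriv ?_ <;>
      simp [BoundedContinuousFunction.star_apply]
  ini := by simp [h.ini]

theorem congr (h : Sol a κ f η p) (hf : ∀ w, a ≤ w → f' w = f w) : Sol a κ f' η p :=
  ⟨h.cl0, h.cl1, h.d0, fun w hw => by rw [hf w hw]; exact h.d1 w hw, h.ini⟩

theorem eq_zero (ha : 0 < a) (hκ : 0 ≤ κ) (h : Sol a κ 0 η p) : η = 0 ∧ p = 0 := by
  set y : ℝ → ℂ := fun s => p s / (4 * s ^ 2) - ((1 - mp κ s : ℝ) : ℂ) * η s with hy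
  have hc : ∀ u v, a ≤ u → ContinuousOn (fun s => ((mp κ s : ℝ) : ℂ)) (Icc u v) := fun u v hu =>
    (continuous_ofReal.comp (continuous_mp ha κ)).continuousOn.congr fun s hs => by
      simp [max_eq_right (hu.trans hs.1)]
  have hyd : ∀ w, a ≤ w → HasDerivWithinAt y ((mp κ w : ℝ) * y w + 0) (Ici a) w := by
    intro w hw
    have h0 : 0 < w := ha.trans_le hw
    have h1 := (h.d1 w hw).sub ((((hasDerivAt_mp hκ h0).const_sub 1).ofReal_comp.hasDerivWithinAt).mul
      (h.d0 w hw))
    refine h1.congr_deriv ?_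
    have h2 : ((1 - mp κ w : ℝ) : ℂ) * (mp κ w : ℝ) = -((κ : ℂ) / (4 * w ^ 2)) := by
      have : (1 - mp κ w) * mp κ w = -(κ / (4 * w ^ 2)) := by
        rw [mm_eq hκ h0, div_eq_mul_one_div κ, ← mp_ps hκ h0]; ring
      exact_mod_cast this
    simp only [hy, BoundedContinuousFunction.coe_zero, Pi.zero_apply]
    push_cast at h2 ⊢
    linear_combination η w * h2
  set C := ‖p‖ / (4 * a ^ 2) + κ * ps κ a * ‖η‖ with hC
  have hyb : ∀ w, a ≤ w → ‖y w‖ ≤ C := by
    intro w hw
    have h0 : 0 < w := ha.trans_le hw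
    have h1 := ps_pos hκ h0
    refine (norm_sub_le _ _).trans (add_le_add ?_ ?_)
    · rw [norm_div, norm_mul, norm_pow, norm_real, Real.norm_of_nonneg h0.le, norm_ofNat]
      gcongr
      exact p.norm_coe_le_norm w
    · rw [mm_eq hκ h0, norm_mul, norm_real, norm_neg, Real.norm_of_nonneg (by positivity)]
      have := ps_anti hκ ha hw
      have := ps_pos hκ ha
      gcongr
      exact η.norm_coe_le_norm w
  have hC0 : 0 ≤ C := (norm_nonneg _).trans (hyb a le_rfl)
  have hy0 : ∀ w, a ≤ w → y w = 0 := by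
    intro w hw
    have h1 : ∀ b, w ≤ b → ‖y w‖ ≤ C * Real.exp (-(b - w)) := fun b hb => by
      have := sup_bwd (a := w) (b := b) (y := y) (μ := fun s => ((mp κ s : ℝ) : ℂ))
        (f := fun _ => 0) (ψ := fun s => C * Real.exp (s - b)) (ψ' := fun s => C * Real.exp (s - b))
        (hc w b hw) (fun s hs => (hyd s (hw.trans hs.1)).mono fun u hu => hw.trans hu.1)
        (fun s _ => by
          simpa using (((hasDerivAt_id s).sub_const b).exp.const_mul C).hasDerivWithinAt)
        (fun s hs => by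
          rw [ofReal_re, norm_zero, add_zero]
          exact le_mul_of_one_le_left (by positivity) (one_le_mp hκ (ha.trans_le (hw.trans hs.1))))
        (by simpa using hyb b (hw.trans hb)) w ⟨le_rfl, hb⟩
      rwa [neg_sub]
    have h2 : Tendsto (fun b => C * Real.exp (-(b - w))) atTop (𝓝 (C * 0)) :=
      (Real.tendsto_exp_neg_atTop_nhds_zero.comp
        (tendsto_atTop_add_const_right atTop (-w) tendsto_id)).const_mul C
    rw [mul_zero] at h2
    exact norm_le_zero_iff.1 (ge_of_tendsto h2 ((eventually_ge_atTop w).mono h1))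
  have hη0 : ∀ w, a ≤ w → η w = 0 := by
    intro w hw
    have := sup_fwd (a := a) (b := w) (y := η) (μ := fun s => 1 - ((mp κ s : ℝ) : ℂ))
      (f := fun _ => 0) (ψ := fun _ => 0) (ψ' := fun _ => 0)
      (continuousOn_const.sub (hc a w le_rfl))
      (fun s hs => by
        refine ((h.d0 s hs.1).mono fun u hu => hu.1).congr_deriv ?_
        have := hy0 s hs.1
        simp only [hy] at this
        push_cast at this
        linear_combination this)
      (fun s _ => hasDerivWithinAt_const _ _ _) (fun s _ => by simp) (by simp [h.ini]) w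
      ⟨hw, le_rfl⟩
    exact norm_le_zero_iff.1 this
  refine ⟨BoundedContinuousFunction.ext fun w => ?_, BoundedContinuousFunction.ext fun w => ?_⟩
  · rw [h.cl0]; exact hη0 _ (le_max_left a w)
  · rw [h.cl1]
    have h1 := hy0 _ (le_max_left a w)
    have h0 : ((max a w : ℝ) : ℂ) ≠ 0 := ofReal_ne_zero.2 (ha.trans_le (le_max_left a w)).ne'
    simp only [hy, hη0 _ (le_max_left a w), mul_zero, sub_zero, div_eq_zero_iff] at h1
    exact h1.resolve_right (mul_ne_zero (by norm_num) (pow_ne_zero 2 h0))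

theorem unique (ha : 0 < a) (hκ : 0 ≤ κ) (h : Sol a κ f η p) (h' : Sol a κ f η' p') :
    η = η' ∧ p = p' := by
  have h1 := h.add (h'.smul (-1))
  simp only [neg_smul, one_smul, add_neg_cancel, ← sub_eq_add_neg] at h1
  have := h1.eq_zero ha hκ
  exact ⟨sub_eq_zero.1 this.1, sub_eq_zero.1 this.2⟩

end Sol

end Vale.Agent.P218CN
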