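import Vale.Agent.P218CO.Op
import Vale.Agent.P218XI.Fr

/-! The operator on a conical end in the form used by the collar system. -/

noncomputable section

namespace Vale.Agent.P218CN
open Set Vale.Agent.P218CO Vale.Agent.P218GA Vale.Agent.P218XI
open Vale.Agent.P218VA (E2)

/-- the operator on a conical end, around a function with the jets `jt` -/
def cOp (c : ℂ) (β β' : ℝ → ℂ) (jt : ℝ × ℝ → J2 ℂ) : EndOp where
  a p j := (4 * p.1 ^ 2 * a11 c (β p.2) ((jt p).1 + j).1 ((jt p).1 + j).2.2,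
    2 * p.1 * a12 c (β p.2) ((jt p).1 + j).1 ((jt p).1 + j).2.2 (2 * p.1 * ((jt p).1 + j).2.1),
    a22 c (β p.2) ((jt p).1 + j).1 (2 * p.1 * ((jt p).1 + j).2.1))
  b p j := bb c (β p.2) (β' p.2) ((jt p).1 + j).1 ((jt p).1 + j).2.2
    (2 * p.1 * ((jt p).1 + j).2.1) (4 * p.1 ^ 2 * ((jt p).1 + j).2.1)
  H p := (jt p).2

/-- the shrinker operator on ordinary jets -/
def Ej (c β β' : ℂ) (w : ℝ) (j : J2 ℂ) : ℂ :=
  EE c β β' j.1.1 j.1.2.2 j.2.2.2 (2 * w * j.1.2.1) (4 * w ^ 2 * j.1.2.1) (4 * w ^ 2 * j.2.1)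
    (2 * w * j.2.2.1)

lemma cOp_E (c : ℂ) (β β' : ℝ → ℂ) (jt : ℝ × ℝ → J2 ℂ) (p : ℝ × ℝ) (j : J2 ℂ) :
    (cOp c β β' jt).E p j = Ej c (β p.2) (β' p.2) p.1 (jt p + j) := by
  simp only [EndOp.E, cOp, pair, Ej, EE, Prod.fst_add, Prod.snd_add]
  ring

variable {S : Set E3} {w : E3 → ℝ} {δ C : ℝ} {ι κ M : Type} [TopologicalSpace M]
  [ChartedSpace E2 M] (m : Model S w δ C ι κ M)

/-- the operator on the conical end `j` of the model -/
def coneOp (j : κ) : EndOp :=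
  cOp (m.L j).c (coneF (m.L j)).β (deriv (coneF (m.L j)).β) (pj fun p => (m.t j p : ℂ))

lemma contDiffAt_t (j : κ) {p : ℝ × ℝ} (hp : m.w0 < p.1) :
    ContDiffAt ℝ 2 (fun p => (m.t j p : ℂ)) p :=
  Complex.ofRealCLM.contDiff.contDiffAt.comp p ((m.t_smooth j p hp).of_le P218VA.two_le_inf)

/-- the shrinker operator of the surface given by `t` -/
theorem PPF_Ej (F : Frame) {t : ℝ × ℝ → ℂ} {p : ℝ × ℝ} (ht : ContDiffAt ℝ 2 t p) (h0 : 0 < p.1)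
    (h : 1 + t p ^ 2 ≠ 0) : P218VA.PPF (1, 0) (0, 1) (fun q : ℝ × ℝ => F.X q.1 q.2 (t q)) p =
      F.sg p.2 * (-4 * Ej F.c (F.β p.2) (deriv F.β p.2) p.1 (pj t p) /
        (rt p.1 * lam (t p) ^ 6)) := by
  rw [F.PPF_eq ht h0 h, F.PP_EE _ _ _ _ _ _ h0 h]
  rfl

theorem coneOp_base (j : κ) {p : ℝ × ℝ} (hp : m.w0 < p.1) : (coneOp m j).E p 0 = 0 := by
  have h0 : 0 < p.1 := by linarith [m.one_le]
  have h := PPF_cone m j hp
  rw [PPF_Ej _ (contDiffAt_t m j hp) h0 (one_add_sq_ne _)] at h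
  have h1 : (coneF (m.L j)).sg p.2 ≠ 0 := fun h1 => by simpa [h1] using (coneF (m.L j)).sg_sq p.2
  have h2 : rt p.1 * lam (m.t j p : ℂ) ^ 6 ≠ 0 :=
    mul_ne_zero (rt_ne h0) (pow_ne_zero _ (one_add_sq_ne _))
  rw [coneOp, cOp_E, add_zero]
  simpa [h1, h2, coneF_c] using h

end Vale.Agent.P218CN
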