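import Vale.Agent.P218CN.Est
import Vale.Agent.P218CN.Green
import Vale.Agent.P218EN.Hol

/-! The outer problem on a conical end, solved in the Wiener algebra. -/

noncomputable section

namespace Vale.Agent.P218CN
open Filter Topology Set Metric Complex Vale.Agent.P218EN WA

/-- a real number in the Wiener algebra -/
def rW (c : ℝ) : WA := algebraMap ℂ WA c

lemma ev_rW (c w θ : ℝ) : (rW c).ev w θ = c := (evA w θ).commutes _

lemma cjR_apply (x : WA) : cjR x = cj x := rfl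

lemma cj_rW (c : ℝ) : cj (rW c) = rW c := ev_inj fun w θ => by
  rw [ev_cj, ev_rW, conj_ofReal]

lemma cj_sc_xB (a : ℝ) : cj (sc (xB a)) = sc (xB a) := ev_inj fun w θ => by
  rw [ev_cj, ev_sc]
  exact conj_ofReal _

lemma cj_smul (c : ℝ) (x : WA) : cj ((c : ℂ) • x) = (c : ℂ) • cj x := ev_inj fun w θ => by
  rw [ev_cj, ev_smul, ev_smul, ev_cj, map_mul, conj_ofReal]

lemma norm_cj_le (x : WA) : ‖cj x‖ ≤ ‖x‖ := (Bd.of_norm univ x).cj.norm_le

lemma cj_cj (x : WA) : cj (cj x) = x := ev_inj fun w θ => by simp [ev_cj]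

/-- conjugation of jets -/
def cjv (d : Fin 6 → WA) : Fin 6 → WA := fun i => cj (d i)

lemma norm_cjv_le (d : Fin 6 → WA) : ‖cjv d‖ ≤ ‖d‖ :=
  (pi_norm_le_iff_of_nonneg (norm_nonneg _)).2 fun i =>
    (norm_cj_le _).trans (norm_le_pi_norm d i)

lemma norm_sc (c : CB) : ‖sc c‖ = ‖c‖ := norm_single 0 c

/-- the solution operator `O` of the outer problem on `[a, ∞)` -/
structure Outer (c a : ℝ) (β β' χ χ' ρ : WA) (s : Fin 6 → WA) (δ C : ℝ)
    (O : (Fin 6 → WA) → Fin 6 → WA) : Prop where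
  holo : DifferentiableOn ℂ O (ball 0 δ)
  zero : O 0 = 0
  bd : ∀ d ∈ ball 0 δ, ‖O d‖ ≤ C * ‖d‖
  jet : ∀ d ∈ ball 0 δ, IsJet a (O d)
  ini : ∀ d ∈ ball 0 δ, ∀ k, (O d 0).co k a = 0
  eq : ∀ d ∈ ball 0 δ, NN (rW c) β β' (sc (xB a)) χ χ' ρ s (O d) d = EJ (rW c) β β' (sc (xB a)) s
  real : ∀ d ∈ ball 0 δ, O (cjv d) = cjv (O d)
  djet : ∀ d ∈ ball 0 δ, ∀ h, IsJet a (fderiv ℂ O d h)
  dini : ∀ d ∈ ball 0 δ, ∀ h k, (fderiv ℂ O d h 0).co k a = 0

/-- the vector of the components of the Green operator -/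
def Gv (G : Fin 6 → WA →L[ℂ] WA) : WA →L[ℂ] (Fin 6 → WA) := ContinuousLinearMap.pi G

lemma Gv_apply (G : Fin 6 → WA →L[ℂ] WA) (f : WA) (i : Fin 6) : Gv G f i = G i f := rfl

/-- the remainder -/
def Rm (c : ℝ) (β β' x χ χ' ρ : WA) (s J d : Fin 6 → WA) : WA :=
  NN (rW c) β β' x χ χ' ρ s J d - EJ (rW c) β β' x s -
    (2 * rW c ^ 3 * (J 4 - J 3) + 2 * rW c * J 2)

variable {a c : ℝ} {G : Fin 6 → WA →L[ℂ] WA} {M : WA →L[ℂ] WA}

theorem Green.bounds (hG : Green a c G M) (hc : 0 < c) {ε : ℝ} (hε : 0 < ε) (hε1 : ε ≤ 1)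
    (ha : 1 ≤ ε ^ 2 * a) (f : WA) : ‖Gv G f‖ ≤ (6 + c ^ 2 + 2 * c) * ‖f‖ ∧
      ‖fj (sc (xB a)) (Gv G f)‖ ≤ ε * ((6 + c ^ 2 + 2 * c) * ‖f‖) ∧
      a * ‖Gv G f 0‖ ≤ (6 + c ^ 2 + 2 * c) * ‖f‖ ∧ ‖M f‖ ≤ 2 * ε * ‖f‖ := by
  have ha0 : 0 < a := (mul_pos_iff_of_pos_left (by positivity)).1 (one_pos.trans_le ha)
  have hεa : 1 ≤ ε * a := by nlinarith [mul_pos hε ha0]
  have ha1 : 1 ≤ a := by nlinarith
  have ia : 1 / a ≤ ε := by rw [div_le_iff₀ ha0]; exact hεa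
  have isq : 1 / √a ≤ ε := by
    rw [div_le_iff₀ (by positivity)]
    refine le_of_sq_le_sq ?_ (by positivity)
    rw [mul_pow, Real.sq_sqrt ha0.le]
    linarith
  have nx : ‖sc (xB a)‖ ≤ 1 / (2 * a) := (norm_sc _).trans_le (norm_xB_le ha1)
  have h0 := norm_nonneg f
  have hc2 : 0 ≤ c ^ 2 := sq_nonneg c
  refine ⟨(pi_norm_le_iff_of_nonneg (by positivity)).2 fun i => ?_, ?_, ?_, ?_⟩
  · have k : ∀ t : ℝ, t ≤ 6 + c ^ 2 + 2 * c → t * ‖f‖ ≤ (6 + c ^ 2 + 2 * c) * ‖f‖ :=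
      fun t ht => by gcongr
    have e1 : 1 / (4 * a) ≤ 1 := by rw [div_le_one (by positivity)]; linarith
    have e2 : c / √a ≤ c := div_le_self hc.le (Real.one_le_sqrt.2 ha1)
    fin_cases i
    · exact (hG.b0 f).trans (k _ (by linarith))
    · exact (hG.b1 f).trans (k _ (by linarith))
    · exact (hG.b2 f).trans (k _ (by linarith))
    · exact (hG.b3 f).trans (k _ (by linarith))
    · exact (hG.b4 f).trans (k _ (by linarith))
    · exact (hG.b5 f).trans (k _ (by linarith))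
  · have k : ∀ t : ℝ, t ≤ ε * (1 + c) → t * ‖f‖ ≤ ε * ((6 + c ^ 2 + 2 * c) * ‖f‖) :=
      fun t ht => by
        rw [← mul_assoc]
        exact mul_le_mul_of_nonneg_right
          (ht.trans (mul_le_mul_of_nonneg_left (by linarith) hε.le)) h0
    have hec : 0 ≤ ε * c := by positivity
    simp only [fj, Prod.norm_def, max_le_iff]
    refine ⟨(hG.b0 f).trans (k _ ?_), (hG.b1 f).trans (k _ ?_),
      (norm_mul_le_of_le nx (hG.b3 f)).trans ((mul_assoc _ _ _).ge.trans (k _ ?_))⟩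
    · have : 1 / (4 * a) ≤ 1 / a := by gcongr; linarith
      linarith
    · calc c / √a = c * (1 / √a) := by ring
        _ ≤ c * ε := by gcongr
        _ ≤ _ := by linarith
    · have : 1 / (2 * a) * 2 = 1 / a := by field_simp
      linarith
  · calc a * ‖G 0 f‖ ≤ a * (1 / (4 * a) * ‖f‖) := by gcongr; exact hG.b0 f
      _ = 1 / 4 * ‖f‖ := by field_simp
      _ ≤ _ := by gcongr; linarith
  · refine (hG.bM f).trans ?_
    rw [show 2 / a = 2 * (1 / a) by ring]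
    gcongr

theorem Green.outer (hG : Green a c G M) (hc : 0 < c) {β β' χ χ' ρ : WA} {s : Fin 6 → WA}
    (hβ : cj β = β) (hβ' : cj β' = β') (rχ : cj χ = χ) (rχ' : cj χ' = χ') (rρ : cj ρ = ρ)
    (rs : cjv s = s) {δ r B : ℝ} (hδ : 0 < δ) (hr : 0 < r) (nG : ∀ f, ‖f‖ ≤ r → ‖Gv G f‖ ≤ B)
    (hb : ∀ d ∈ ball (0 : Fin 6 → WA) δ, ∀ f, ‖f‖ ≤ r → ‖-M f - (((2 * c ^ 3)⁻¹ : ℝ) : ℂ) •
      Rm c β β' (sc (xB a)) χ χ' ρ s (Gv G f) d‖ ≤ r / 8) :
    ∃ O, Outer c a β β' χ χ' ρ s δ (2 * B / δ) O := by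
  set κ : ℝ := (2 * c ^ 3)⁻¹ with hκ
  set x := sc (xB a) with hx
  have hd : Differentiable ℂ fun z : (Fin 6 → WA) × WA =>
      -M z.2 - (κ : ℂ) • Rm c β β' x χ χ' ρ s (Gv G z.2) z.1 := by
    have h1 := differentiable_NN (rW c) β β' x χ χ' ρ s (E := (Fin 6 → WA) × WA)
      (J := fun z => Gv G z.2) (d := fun z => z.1) (by fun_prop) (by fun_prop)
    simp only [Rm, Gv_apply]
    fun_prop
  obtain ⟨F, hFd, hF⟩ := exists_fix (U := ball (0 : Fin 6 → WA) δ) isOpen_ball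
    (fun _ => ContinuousLinearMap.id ℂ WA) _ hr (lt_add_one _) (fun _ _ _ => le_rfl)
    hd.differentiableOn hb
  simp only [ContinuousLinearMap.id_apply] at hF
  have hfd : ∀ d ∈ ball (0 : Fin 6 → WA) δ, ∀ h,
      fderiv ℂ (fun d => Gv G (F d)) d h = Gv G (fderiv ℂ F d h) := fun d hd h =>
    congrArg (fun L => L h) ((Gv G).hasFDerivAt.comp d
      (hFd.differentiableAt (isOpen_ball.mem_nhds hd)).hasFDerivAt).fderiv
  have h0 : F 0 = 0 := by
    refine ((hF 0 (mem_ball_self hδ)).2.2 0 (by simpa using hr.le) ?_).symm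
    simp [Rm, NN_zero]
  have hO : DifferentiableOn ℂ (fun d => Gv G (F d)) (ball 0 δ) :=
    (Gv G).differentiable.comp_differentiableOn hFd
  refine ⟨fun d => Gv G (F d), hO, by simp [h0], fun d hd => ?_, fun d _ => hG.jet _,
    fun d _ => hG.ini _, fun d hd => ?_, fun d hd => ?_, fun d hd h => ?_, fun d hd h k => ?_⟩
  · simpa [h0] using lip_le hO (M := B) (fun y hy => nG _ (by linarith [(hF y hy).2.1])) hd
  · have h1 := (hF d hd).1
    have h2 := hG.eq (F d)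
    have h3 : F d + M (F d) = -((κ : ℂ) • Rm c β β' x χ χ' ρ s (Gv G (F d)) d) := by
      nth_rw 1 [← h1]
      abel
    have hc' : (c : ℂ) ≠ 0 := ofReal_ne_zero.2 hc.ne'
    have h4 : 2 * rW c ^ 3 * (Gv G (F d) 4 - Gv G (F d) 3) + 2 * rW c * Gv G (F d) 2 =
        -Rm c β β' x χ χ' ρ s (Gv G (F d)) d := by
      refine ev_inj fun w θ => ?_
      have := congrArg (evA w θ) (h2.trans h3)
      simp only [map_add, map_sub, map_smul, map_neg, smul_eq_mul, hκ] at this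
      rw [← evA_apply, ← evA_apply]
      simp only [map_add, map_sub, map_mul, map_pow, map_neg, map_ofNat, Gv_apply]
      rw [evA_apply w θ (rW c), ev_rW]
      push_cast at this
      field_simp at this
      linear_combination this
    simp only [Rm] at h4
    linear_combination h4
  · have hd' : cjv d ∈ ball (0 : Fin 6 → WA) δ :=
      mem_ball_zero_iff.2 ((norm_cjv_le d).trans_lt (mem_ball_zero_iff.1 hd))
    have hGc : ∀ f, Gv G (cj f) = cjv (Gv G f) := fun f => funext fun i => hG.cjG i f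
    have h1 : ∀ J, Rm c β β' x χ χ' ρ s (cjv J) (cjv d) = cj (Rm c β β' x χ χ' ρ s J d) := by
      intro J
      have e1 := map_NN cjR (rW c) β β' x χ χ' ρ s J d
      have e2 := map_EJ cjR (rW c) β β' x s
      have e3 : (fun i => cj (s i)) = s := rs
      simp only [cjR_apply, cj_rW, hβ, hβ', hx, cj_sc_xB, rχ, rχ', rρ, e3] at e1 e2
      rw [← cjR_apply (Rm ..)]
      simp only [Rm, map_sub, map_add, map_mul, map_pow, map_ofNat]
      simp only [cjR_apply, cj_rW, hx, e1, e2]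
      rfl
    have h2 : -M (cj (F d)) - (κ : ℂ) • Rm c β β' x χ χ' ρ s (Gv G (cj (F d))) (cjv d) =
        cj (F d) := by
      nth_rw 3 [← (hF d hd).1]
      rw [hGc, h1, hG.cjM, ← cj_smul, ← cjR_apply (_ - _), map_sub, map_neg]
      rfl
    have h3 := (hF _ hd').2.2 _ ((norm_cj_le _).trans (by linarith [(hF d hd).2.1])) h2
    rw [← h3, hGc]
  · rw [hfd d hd]; exact hG.jet _
  · rw [hfd d hd]; exact hG.ini _ k

theorem exists_outer (hc : 0 < c) {β β' : WA} (hβ : cj β = β) (hβ' : cj β' = β') {K : ℝ}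
    (hK : 1 ≤ K) : ∃ ε0 : ℝ, 0 < ε0 ∧ ∀ ε, 0 < ε → ε ≤ ε0 → ∀ a : ℝ, 1 ≤ ε ^ 2 * a →
      ∀ (χ χ' ρ : WA) (s : Fin 6 → WA), Small K ε (sc (xB a)) χ χ' ρ s → ‖χ'‖ ≤ K * a →
      cj χ = χ → cj χ' = χ' → cj ρ = ρ → cjv s = s →
      ∃ O, Outer c a β β' χ χ' ρ s (ε ^ 2) (2 / ε) O := by
  obtain ⟨C, ε0, hC, hε0, hest⟩ := exists_est (rW c) β β' hK
  obtain ⟨C1, hC1⟩ : ∃ C1, C1 = 6 + c ^ 2 + 2 * c := ⟨_, rfl⟩
  have hC10 : 0 < C1 := by rw [hC1]; positivity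
  refine ⟨min (min ε0 (1 / 32)) (c ^ 3 / (8 * C * C1)), by positivity,
    fun ε hε hεl a ha χ χ' ρ s H hχa rχ rχ' rρ rs => ?_⟩
  have hε1 : ε ≤ ε0 := hεl.trans ((min_le_left _ _).trans (min_le_left _ _))
  have hε2 : ε ≤ 1 / 32 := hεl.trans ((min_le_left _ _).trans (min_le_right _ _))
  have hε3 : ε * (8 * C * C1) ≤ c ^ 3 := (le_div_iff₀ (by positivity)).1
    (hεl.trans (min_le_right _ _))
  have ha0 : 0 < a := (mul_pos_iff_of_pos_left (by positivity)).1 (one_pos.trans_le ha)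
  have ha1 : 1 ≤ a := ha.trans (mul_le_of_le_one_left ha0.le (pow_le_one₀ hε.le (by linarith)))
  obtain ⟨G, M, hG⟩ := exists_green ha1 hc
  have hb := hG.bounds hc hε (by linarith) ha
  rw [← hC1] at hb
  have hf' : ∀ f : WA, ‖f‖ ≤ ε / C1 → C1 * ‖f‖ ≤ ε := fun f hf => by rwa [le_div_iff₀' hC10] at hf
  have := hG.outer hc hβ hβ' rχ rχ' rρ rs (δ := ε ^ 2) (r := ε / C1) (B := ε) (by positivity)
    (by positivity) (fun f hf => (hb f).1.trans (hf' f hf)) fun d hd f hf => by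
      have h0 : ‖χ' * Gv G f 0‖ ≤ K * ε :=
        calc _ ≤ K * a * ‖Gv G f 0‖ := norm_mul_le_of_le hχa le_rfl
          _ = K * (a * ‖Gv G f 0‖) := mul_assoc _ _ _
          _ ≤ _ := by gcongr; exact (hb f).2.2.1.trans (hf' f hf)
      have h1 : ‖Rm c β β' (sc (xB a)) χ χ' ρ s (Gv G f) d‖ ≤ C * (ε * ε) :=
        hest ε ε hε1 hε.le le_rfl _ χ χ' ρ s (Gv G f) d H ((hb f).1.trans (hf' f hf))
          ((hb f).2.1.trans (by gcongr; exact hf' f hf)) h0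
          ((mem_ball_zero_iff.1 hd).le.trans (sq ε).le)
      have h2 : ‖M f‖ ≤ 1 / 16 * (ε / C1) := (hb f).2.2.2.trans (by gcongr; linarith)
      have h4 : (2 * c ^ 3)⁻¹ * (C * (ε * ε)) ≤ ε / C1 / 16 := by
        rw [inv_mul_le_iff₀ (by positivity), div_div, ← mul_div_assoc,
          le_div_iff₀ (by positivity)]
        linarith [mul_le_mul_of_nonneg_left hε3 hε.le]
      refine (norm_sub_le _ _).trans ?_
      rw [norm_neg, norm_smul, norm_real, Real.norm_of_nonneg (by positivity)]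
      have h5 := mul_le_mul_of_nonneg_left h1 (show 0 ≤ (2 * c ^ 3)⁻¹ by positivity)
      linarith
  rwa [show 2 * ε / ε ^ 2 = 2 / ε by field_simp] at this

end Vale.Agent.P218CN
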