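import Vale.Agent.P218CN.Op
import Vale.Agent.P218CN.Solve
import Vale.Agent.P218MP.OfFun

/-! The jets of a conical end of the shrinker as elements of the Wiener algebra. -/

noncomputable section

namespace Vale.Agent.P218CN
open Set Filter Topology Vale.Agent.P218CO Vale.Agent.P218GA Vale.Agent.P218XI Vale.Agent.P218EN
open WA Vale.Agent.P218VA Vale.Agent.P218MP
open scoped ContDiff Real

/-- the normalised jet of an ordinary jet -/
def nj (w : ℝ) (j : J2 ℂ) : Fin 6 → ℂ :=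
  ![j.1.1, j.1.2.2, j.2.2.2, 4 * w ^ 2 * j.1.2.1, 4 * w ^ 2 * j.2.1, 2 * w * j.2.2.1]

lemma EJ_nj (c β β' : ℂ) {w : ℝ} (hw : w ≠ 0) (j : J2 ℂ) :
    EJ c β β' (1 / (2 * w)) (nj w j) = Ej c β β' w j := by
  have h : (1 / (2 * w) : ℂ) * (4 * w ^ 2 * j.1.2.1) = 2 * w * j.1.2.1 := by
    have : (w : ℂ) ≠ 0 := Complex.ofReal_ne_zero.2 hw
    field_simp
    norm_num
  simp only [EJ, nj, Ej, Matrix.cons_val, h]

lemma cj_eq_of_real {x : WA} (h : ∀ w θ, ∃ r : ℝ, x.ev w θ = r) : WA.cj x = x :=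
  ev_inj fun w θ => by
    obtain ⟨r, hr⟩ := h w θ
    rw [ev_cj, hr, Complex.conj_ofReal]

/-- smooth above the level `w0` and periodic -/
structure Sm (w0 : ℝ) (f : ℝ × ℝ → ℝ) : Prop where
  cd : ∀ p : ℝ × ℝ, w0 < p.1 → ContDiffAt ℝ ∞ f p
  per : Per f

section sm
variable {w0 : ℝ} {f : ℝ × ℝ → ℝ}

lemma Sm.pd (h : Sm w0 f) (v : ℝ × ℝ) : Sm w0 (pd f v) :=
  ⟨fun p hp => contDiffAt_pd (h.cd p hp) (by simp) v,
    fun w θ => pd_periodic isOpen_univ (fun w _ => h.per w) v (mem_univ w) θ⟩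

lemma Sm.dw (h : Sm w0 f) (a : ℕ) : Sm w0 (dw^[a] f) := by
  induction a with
  | zero => exact h
  | succ a ih => rw [Function.iterate_succ_apply']; exact ih.pd _

lemma Sm.dth (h : Sm w0 f) (a : ℕ) : Sm w0 (dth^[a] f) := by
  induction a with
  | zero => exact h
  | succ a ih => rw [Function.iterate_succ_apply']; exact ih.pd _

lemma Sm.comm (h : Sm w0 f) (a : ℕ) {p : ℝ × ℝ} (hp : w0 < p.1) :
    P218GA.dth (P218GA.dw^[a] f) p = P218GA.dw^[a] (P218GA.dth f) p := by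
  induction a generalizing p with
  | zero => rfl
  | succ a ih =>
    rw [Function.iterate_succ_apply', Function.iterate_succ_apply']
    refine (pd_comm (((h.dw a).cd p hp).of_le two_le_inf) _ _).trans (pd_congr ?_ _)
    filter_upwards [continuous_fst.continuousAt.eventually (lt_mem_nhds hp)] with q hq using ih hq

lemma Sm.hasDerivAt (h : Sm w0 f) (a b : ℕ) {w : ℝ} (hw : w0 < w) (θ : ℝ) :
    HasDerivAt (fun t => P218GA.dw^[a] (P218GA.dth^[b] f) (w, t))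
      (P218GA.dw^[a] (P218GA.dth^[b + 1] f) (w, θ)) θ := by
  rw [Function.iterate_succ_apply', ← (h.dth b).comm a hw]
  exact hasDerivAt_snd ((((h.dth b).dw a).cd _ hw).differentiableAt (by simp))

theorem Sm.exists_small (h : Sm w0 f)
    (hl : ∀ a b : ℕ, ToZero fun p => p.1 ^ a * P218GA.dw^[a] (P218GA.dth^[b] f) p) (a b : ℕ)
    (t : ℝ) {ε : ℝ} (hε : 0 < ε) : ∀ᶠ s in atTop, ∃ x : WA, ‖x‖ ≤ ε ∧ ∀ w θ, x.ev w θ =
      (t * max s w ^ a * P218GA.dw^[a] (P218GA.dth^[b] f) (max s w, θ) : ℝ) := by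
  set c0 : ℝ := (∑' k, P218MP.wt 1 k) * |t| + 1 with hc0
  have hc : 0 < c0 := by
    have : 0 ≤ ∑' k, P218MP.wt 1 k := tsum_nonneg (wt_nonneg 1)
    positivity
  obtain ⟨W, hW⟩ := hl a b (ε / c0) (by positivity)
  obtain ⟨W', hW'⟩ := hl a (b + 1 + 1) (ε / c0) (by positivity)
  filter_upwards [eventually_ge_atTop W, eventually_ge_atTop W', eventually_gt_atTop w0]
    with s h1 h2 h3
  have hm : ∀ w, w0 < max s w := fun w => h3.trans_le (le_max_left _ _)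
  have hc' : ∀ b, Continuous fun p : ℝ × ℝ =>
      ((max s p.1 ^ a * P218GA.dw^[a] (P218GA.dth^[b] f) (max s p.1, p.2) : ℝ) : ℂ) := fun b => by
    refine Complex.continuous_ofReal.comp (Continuous.mul (by fun_prop) ?_)
    exact continuous_iff_continuousAt.2 fun p => ContinuousAt.comp
      (((h.dth b).dw a).cd _ (hm p.1)).continuousAt (by fun_prop)
  have hd : ∀ b w θ, HasDerivAt
      (fun θ => ((max s w ^ a * P218GA.dw^[a] (P218GA.dth^[b] f) (max s w, θ) : ℝ) : ℂ))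
      ((max s w ^ a * P218GA.dw^[a] (P218GA.dth^[b + 1] f) (max s w, θ) : ℝ) : ℂ) θ :=
    fun b w θ => ((h.hasDerivAt a b (hm w) θ).const_mul _).ofReal_comp
  obtain ⟨x, hx, hn⟩ := WOK.exists_WA (α := 1) (N := ε / c0) one_pos (f := fun w θ =>
      ((max s w ^ a * P218GA.dw^[a] (P218GA.dth^[b] f) (max s w, θ) : ℝ) : ℂ))
    ⟨hc' b, fun w θ => by rw [((h.dth b).dw a).per], fun w θ => by
      rw [Complex.norm_real]; exact hW (_, θ) (h1.trans (le_max_left _ _)), fun w =>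
      ⟨_, hd b w, (hc' (b + 1)).comp (continuous_const.prodMk continuous_id), fun x y => by
        rw [Real.rpow_one]
        exact convex_univ.norm_image_sub_le_of_norm_hasDerivWithin_le
          (fun θ _ => (hd (b + 1) w θ).hasDerivWithinAt) (fun θ _ => by
            rw [Complex.norm_real]; exact hW' (_, θ) (h2.trans (le_max_left _ _)))
          (mem_univ y) (mem_univ x)⟩⟩
  refine ⟨(t : ℂ) • x, ?_, fun w θ => by rw [ev_smul, hx]; push_cast; ring⟩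
  rw [norm_smul, Complex.norm_real, Real.norm_eq_abs]
  calc |t| * ‖x‖ ≤ |t| * ((∑' k, P218MP.wt 1 k) * (ε / c0)) := by gcongr
    _ = (c0 - 1) * (ε / c0) := by rw [hc0]; ring
    _ ≤ c0 * (ε / c0) := by gcongr; linarith
    _ = ε := by field_simp

end sm

theorem exists_WA_of_per {g : ℝ → ℝ} (hg : ContDiff ℝ ∞ g) (hp : Function.Periodic g (2 * π)) :
    ∃ x : WA, ∀ w θ, x.ev w θ = g θ := by
  have h1 := contDiff_infty_iff_deriv.1 hg
  have h2 := contDiff_infty_iff_deriv.1 h1.2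
  have p1 : Function.Periodic (deriv g) (2 * π) := fun θ => by
    rw [← deriv_comp_add_const, funext hp]
  have p2 : Function.Periodic (deriv (deriv g)) (2 * π) := fun θ => by
    rw [← deriv_comp_add_const, funext p1]
  obtain ⟨A, hA⟩ := (hp.isBounded_of_continuous (by positivity) hg.continuous).exists_norm_le
  obtain ⟨B, hB⟩ := (p2.isBounded_of_continuous (by positivity) h2.2.continuous).exists_norm_le
  obtain ⟨x, hx, -⟩ := WOK.exists_WA (α := 1) (N := max A B) one_pos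
    (f := fun _ θ => (g θ : ℂ))
    ⟨Complex.continuous_ofReal.comp (hg.continuous.comp continuous_snd),
      fun w θ => by rw [hp], fun w θ => by
      rw [Complex.norm_real]; exact (hA _ ⟨θ, rfl⟩).trans (le_max_left _ _), fun w =>
      ⟨fun θ => (deriv g θ : ℝ), fun θ => (h1.1 θ).hasDerivAt.ofReal_comp,
        Complex.continuous_ofReal.comp h1.2.continuous, fun x y => by
        rw [Real.rpow_one]
        exact convex_univ.norm_image_sub_le_of_norm_hasDerivWithin_le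
          (fun θ _ => (h2.1 θ).hasDerivAt.ofReal_comp.hasDerivWithinAt) (fun θ _ => by
            rw [Complex.norm_real]; exact (hB _ ⟨θ, rfl⟩).trans (le_max_right _ _))
          (mem_univ y) (mem_univ x)⟩⟩
  exact ⟨x, hx⟩

theorem exists_inv_near {c : ℝ} (hc : 0 < c) {g : WA} (h : ‖g - rW c‖ ≤ c / 2) :
    ∃ y : WA, g * y = 1 ∧ ‖y‖ ≤ 2 / c := by
  have hc' : (c : ℂ) ≠ 0 := Complex.ofReal_ne_zero.2 hc.ne'
  set t : WA := (-(c : ℂ)⁻¹) • (g - rW c) with ht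
  have h1 : ‖t‖ ≤ 1 / 2 := by
    rw [ht, norm_smul, norm_neg, norm_inv, Complex.norm_real, Real.norm_of_nonneg hc.le,
      inv_mul_le_iff₀ hc]
    linarith
  have h2 := mul_neg_geom_series t (by linarith)
  have h3 := tsum_geometric_le_of_norm_lt_one t (by linarith)
  have h4 : (1 - ‖t‖)⁻¹ ≤ 2 := by rw [inv_le_comm₀ (by linarith) two_pos]; linarith
  refine ⟨(c : ℂ)⁻¹ • ∑' i : ℕ, t ^ i, ?_, ?_⟩
  · rw [← h2, mul_smul_comm, ← smul_mul_assoc]
    congr 1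
    rw [ht, neg_smul, sub_neg_eq_add, smul_sub, rW, Algebra.algebraMap_eq_smul_one, smul_smul,
      inv_mul_cancel₀ hc', one_smul, add_sub_cancel]
  · rw [norm_smul, norm_inv, Complex.norm_real, Real.norm_of_nonneg hc.le, inv_mul_le_iff₀ hc,
      mul_div_cancel₀ _ hc.ne']
    rw [norm_one] at h3
    linarith

variable {S : Set E3} {w : E3 → ℝ} {δ C : ℝ} {ι κ M : Type} [TopologicalSpace M]
  [ChartedSpace E2 M] (m : Model S w δ C ι κ M)

lemma pj_t (j : κ) {p : ℝ × ℝ} (hp : m.w0 < p.1) : pj (fun p => (m.t j p : ℂ)) p =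
    (((m.t j p : ℂ), ((dw (m.t j) p : ℝ) : ℂ), ((dth (m.t j) p : ℝ) : ℂ)),
      (((dw (dw (m.t j)) p : ℝ) : ℂ), ((dw (dth (m.t j)) p : ℝ) : ℂ),
        ((dth (dth (m.t j)) p : ℝ) : ℂ))) := by
  have h2 := (m.t_smooth j p hp).of_le two_le_inf
  have h := cj_clm (d1 := ((1, 0) : ℝ × ℝ)) (d2 := (0, 1)) Complex.ofRealCLM h2
  change pj (fun p => (m.t j p : ℂ)) p = _ at h
  rw [h]
  simp [P218CO.cj, dw, dth, pd_comm h2 (1, 0) (0, 1)]

/-- the data of a conical end in the Wiener algebra -/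
structure SJ (j : κ) (a : ℝ) (β β' : WA) (s : Fin 6 → WA) : Prop where
  b : ∀ w θ, β.ev w θ = (coneF (m.L j)).β θ
  b' : ∀ w θ, β'.ev w θ = deriv (coneF (m.L j)).β θ
  ev : ∀ i w θ, (s i).ev w θ = nj (max a w) (pj (fun p => (m.t j p : ℂ)) (max a w, θ)) i
  eq : EJ (rW (m.L j).c) β β' (sc (xB a)) s = 0
  rb : WA.cj β = β
  rb' : WA.cj β' = β'
  rs : cjv s = s

theorem exists_sj (j : κ) : ∃ (β β' : WA) (K : ℝ), 1 ≤ K ∧ ∀ ε : ℝ, 0 < ε → ∀ᶠ a in atTop,
    ∃ s, SJ m j a β β' s ∧ ‖s 0‖ ≤ ε ∧ ‖s 1‖ ≤ ε ∧ ‖s 2‖ ≤ ε ∧ ‖s 3‖ ≤ K ∧ ‖s 4‖ ≤ ε ∧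
      ‖s 5‖ ≤ ε ∧ ‖sc (xB a) * s 3‖ ≤ ε := by
  have hb := Link.bet_sm (m.L j)
  have hbp : Function.Periodic (Link.bet (m.L j)) (2 * π) := fun θ =>
    Complex.ofReal_injective ((coneF (m.L j)).β_per θ)
  obtain ⟨β, hβ⟩ := exists_WA_of_per hb hbp
  obtain ⟨β', hβ'⟩ := exists_WA_of_per (contDiff_infty_iff_deriv.1 hb).2 fun θ => by
    rw [← deriv_comp_add_const, funext hbp]
  obtain ⟨c, hcc⟩ : ∃ c, c = (m.L j).c := ⟨_, rfl⟩
  have hc : 0 < c := hcc ▸ (m.L j).c_pos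
  obtain ⟨L, r, hr, hL, hlip⟩ := exists_lip (rW c) β β'
  refine ⟨β, β', 1 + 2 / (2 * c ^ 3) * (4 * L), le_add_of_nonneg_right (by positivity),
    fun ε hε => ?_⟩
  obtain ⟨e, he, e1, e2, e3, e4⟩ : ∃ e : ℝ, 0 < e ∧ e ≤ ε ∧ e ≤ 1 ∧ e ≤ r ∧ L * e ≤ c ^ 3 :=
    ⟨min (min ε 1) (min r (c ^ 3 / (L + 1))), by positivity,
      (min_le_left _ _).trans (min_le_left _ _), (min_le_left _ _).trans (min_le_right _ _),
      (min_le_right _ _).trans (min_le_left _ _), by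
        refine (mul_le_mul_of_nonneg_left ((min_le_right _ _).trans (min_le_right _ _)) hL).trans ?_
        rw [← mul_div_assoc, div_le_iff₀ (by positivity)]
        nlinarith [pow_pos hc 3]⟩
  have hs : Sm m.w0 (m.t j) := ⟨m.t_smooth j, m.t_periodic j⟩
  filter_upwards [hs.exists_small (m.t_lim j) 0 0 1 he, hs.exists_small (m.t_lim j) 0 1 1 he,
    hs.exists_small (m.t_lim j) 0 2 1 he, hs.exists_small (m.t_lim j) 1 0 2 he,
    hs.exists_small (m.t_lim j) 2 0 4 he, hs.exists_small (m.t_lim j) 1 1 2 he,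
    eventually_gt_atTop m.w0] with a ⟨t, nt, ht⟩ ⟨T, nT, hT⟩ ⟨U, nU, hU⟩ ⟨Z, nZ, hZ⟩ ⟨Q, nQ, hQ⟩
    ⟨S', nS, hS⟩ ha
  have ha1 : 1 ≤ a := m.one_le.trans ha.le
  have hm : ∀ w, m.w0 < max a w := fun w => ha.trans_le (le_max_left _ _)
  have hm0 : ∀ w, max a w ≠ 0 := fun w => (one_pos.trans_le (ha1.trans (le_max_left a w))).ne'
  have nu : ‖(t, T, Z)‖ ≤ e := by simp [Prod.norm_def, nt, nT, nZ]
  have hp := hlip (t, T, Z) 0 (nu.trans e3) (by simpa using hr.le)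
  obtain ⟨y, hy, ny⟩ := exists_inv_near (c := 2 * c ^ 3) (by positivity)
    (g := pv (rW c) β β' (t, T, Z) 4) (by
      have h1 := (hp 4).2
      have h2 : rW (2 * c ^ 3) = 2 * rW c ^ 3 := by simp [rW, map_ofNat]
      rw [pv_4, sub_zero, ← h2] at h1
      nlinarith [mul_le_mul_of_nonneg_left nu hL])
  set N := pv (rW c) β β' (t, T, Z) 0 * Q + pv (rW c) β β' (t, T, Z) 1 * S' +
    pv (rW c) β β' (t, T, Z) 2 * U + pv (rW c) β β' (t, T, Z) 3 with hN
  have hE : ∀ P : WA, EE (rW c) β β' t T U Z P Q S' = N - pv (rW c) β β' (t, T, Z) 4 * P := by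
    intro P
    simp only [hN, pv, EE, P218CN.bb, Matrix.cons_val]
    ring
  obtain ⟨q, hq⟩ : ∃ q : ℝ → ℝ → J2 ℂ, ∀ w θ,
    q w θ = pj (fun p => (m.t j p : ℂ)) (max a w, θ) := ⟨_, fun _ _ => rfl⟩
  have hq' := fun w θ => (hq w θ).trans (pj_t m j (p := (max a w, θ)) (hm w))
  have v0 : ∀ w θ, t.ev w θ = (q w θ).1.1 := fun w θ => by simp [ht, hq']
  have v1 : ∀ w θ, T.ev w θ = (q w θ).1.2.2 := fun w θ => by simp [hT, hq']
  have v2 : ∀ w θ, U.ev w θ = (q w θ).2.2.2 := fun w θ => by simp [hU, hq']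
  have vZ : ∀ w θ, Z.ev w θ = 2 * (max a w : ℝ) * (q w θ).1.2.1 := fun w θ => by simp [hZ, hq']
  have v4 : ∀ w θ, Q.ev w θ = 4 * (max a w : ℝ) ^ 2 * (q w θ).2.1 := fun w θ => by simp [hQ, hq']
  have v5 : ∀ w θ, S'.ev w θ = 2 * (max a w : ℝ) * (q w θ).2.2.1 := fun w θ => by simp [hS, hq']
  have v3 : ∀ w θ, (y * N).ev w θ = 4 * (max a w : ℝ) ^ 2 * (q w θ).1.2.1 := by
    intro w θ
    have h1 := coneOp_base m j (p := (max a w, θ)) (hm w)
    rw [coneOp, cOp_E, add_zero, coneF_dβ, ← hcc, ← hq, Ej] at h1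
    have h2 := congrArg (evA w θ) (hE (algebraMap ℂ WA (4 * (max a w : ℝ) ^ 2 * (q w θ).1.2.1)))
    rw [map_EE, map_sub, map_mul (evA w θ), AlgHom.commutes] at h2
    simp only [evA_apply, ev_rW, hβ, hβ', v0, v1, v2, vZ, v4, v5] at h2
    have h3 := h2.symm.trans h1
    have h4 := congrArg (evA w θ) hy
    rw [map_mul, map_one, evA_apply, evA_apply] at h4
    rw [ev_mul, sub_eq_zero.1 h3, ← mul_assoc, mul_comm (y.ev w θ), h4, one_mul]
    rfl
  have hZP : sc (xB a) * (y * N) = Z := ev_inj fun w θ => by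
    have : ((max a w : ℝ) : ℂ) ≠ 0 := Complex.ofReal_ne_zero.2 (hm0 w)
    rw [ev_mul, ev_sc, v3, vZ, xB_apply ha1]
    push_cast
    field_simp
    norm_num
  have nN : ‖N‖ ≤ 4 * L := by
    have := norm_add_le_of_le (norm_add_le_of_le (norm_add_le_of_le
      (norm_mul_le_of_le (hp 0).1 (nQ.trans e2)) (norm_mul_le_of_le (hp 1).1 (nS.trans e2)))
      (norm_mul_le_of_le (hp 2).1 (nU.trans e2))) (hp 3).1
    linarith
  have hev : ∀ i w θ, (![t, T, U, y * N, Q, S'] i).ev w θ = nj (max a w) (q w θ) i := by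
    intro i w θ
    fin_cases i
    exacts [v0 w θ, v1 w θ, v2 w θ, v3 w θ, v4 w θ, v5 w θ]
  refine ⟨![t, T, U, y * N, Q, S'], ⟨hβ, fun w θ => (hβ' w θ).trans (coneF_dβ _ θ).symm,
    fun i w θ => hq w θ ▸ hev i w θ, ?_, cj_eq_of_real fun w θ => ⟨_, hβ w θ⟩,
    cj_eq_of_real fun w θ => ⟨_, hβ' w θ⟩, funext fun i => cj_eq_of_real fun w θ => ?_⟩,
    nt.trans e1, nT.trans e1, nU.trans e1, ?_, nQ.trans e1, nS.trans e1, hZP ▸ nZ.trans e1⟩
  · simp only [EJ, Matrix.cons_val]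
    rw [hZP, ← hcc, hE, ← mul_assoc, hy, one_mul, sub_self]
  · rw [hev, hq']
    fin_cases i <;> simp only [nj] <;> exact ⟨_, by norm_cast⟩
  · exact (norm_mul_le_of_le ny nN).trans (le_add_of_nonneg_left zero_le_one)

/-- the radial derivative decays like `w ^ (-2)` -/
theorem exists_P_bound (j : κ) :
    ∃ K A : ℝ, ∀ p : ℝ × ℝ, A ≤ p.1 → |p.1 ^ 2 * dw (m.t j) p| ≤ K := by
  obtain ⟨β, β', K, -, h⟩ := exists_sj m j
  obtain ⟨a, ⟨s, hs, -, -, -, h3, -⟩, ha⟩ := ((h 1 one_pos).and (eventually_gt_atTop m.w0)).exists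
  refine ⟨K, a, fun p hp => ?_⟩
  have h1 := (norm_ev_le (s 3) p.1 p.2).trans h3
  rw [hs.ev, max_eq_right hp, pj_t m j (ha.trans_le hp)] at h1
  simp only [nj, Matrix.cons_val] at h1
  norm_cast at h1
  rw [Real.norm_eq_abs, mul_assoc, abs_mul, abs_of_pos four_pos] at h1
  linarith [abs_nonneg (p.1 ^ 2 * dw (m.t j) p)]

end Vale.Agent.P218CN
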